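import Claimed.Statements.S0046
import Claimed.Agent.R019.Assembly
import Claimed.Agent.R019.NonCoordH19

set_option autoImplicit false
open Claims Claims.C0027 Claims.C0027.AbhyankarSathaye
open Claims Claims.C0027 Claims.C0027.AbhyankarSathaye

namespace Claimed.Agent.S0046

theorem result (n : ℕ) (hn : 4 ≤ n) :
    ∃ F : MvPolynomial (Fin n) ℂ,
      Nonempty ((MvPolynomial (Fin n) ℂ ⧸ Ideal.span {F}) ≃ₐ[ℂ]
        MvPolynomial (Fin (n - 1)) ℂ) ∧
      ¬ ∃ (equiv : MvPolynomial (Fin n) ℂ ≃ₐ[ℂ] MvPolynomial (Fin n) ℂ)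
        (index : Fin n), equiv (MvPolynomial.X index) = F := by
  obtain ⟨m, rfl⟩ : ∃ m, n = m + 4 := ⟨n - 4, by omega⟩
  refine ⟨Claimed.Agent.R019.H19.Fm m, ⟨Claimed.Agent.R019.H19.isoF m⟩, ?_⟩
  exact Claimed.Agent.R019.H19.not_coord _ _ _ _
    (Matrix.vecCons 2 (Matrix.vecCons 0 (Matrix.vecCons (-1/2) (Matrix.vecCons (1/2)
      (fun _ : Fin m => 0)))))
    (by simp [Claimed.Agent.R019.H19.i0]) (by simp [Claimed.Agent.R019.H19.i1])
    (by simp [Claimed.Agent.R019.H19.i2]) (by simp [Claimed.Agent.R019.H19.i3])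

end Claimed.Agent.S0046
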