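import Claimed.Statements.S0048
import Claimed.Agent.R020.Pk01
import Claimed.Agent.R020.Pk02
import Claimed.Agent.R020.Pk03

set_option autoImplicit false
open Claims Claims.C0029 Claims.C0029.QuadricCounterexample
open Set Filter Topology Metric OnePoint
open scoped Matrix.Norms.Elementwise ComplexOrder
open Claims Claims.C0029 Claims.C0029.QuadricCounterexample

namespace Claimed.Agent.S0048

theorem result : SourceMainTheorem :=
  ⟨Claimed.Agent.R020.GD.G, Claimed.Agent.R020.GD.E,
    fun _ hm => Claimed.Agent.R020.GD.isPowerPullbackTwist_E hm,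
    fun m hm => Claimed.Agent.R020.Amp.isAmple_of_GG Claimed.Agent.R020.GD.G
      (Claimed.Agent.R020.GD.E m) m hm (fun _ hi => Claimed.Agent.R020.GD.G_equation hi)
      (Claimed.Agent.R020.GD.isPowerPullbackTwist_E hm) (2 * m + 1) 0 2 (by omega) (by omega)
      (Claimed.Agent.R020.GGB.hgen Claimed.Agent.R020.GGData.D
        Claimed.Agent.R020.GGData.evLy_psi (2 * m + 1)),
    Claimed.Agent.R020.An6.no_metric_of_no_chainData
      (Claimed.Agent.R020.An5.no_chainData Claimed.Agent.R020.An4.geom)⟩

end Claimed.Agent.S0048
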