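import Claimed.Statements.S0049
import Claimed.Agent.R021B.Pk02
import Claimed.Agent.R021B.Pk05
import Claimed.Agent.R021B.Pk04

set_option autoImplicit false
open Claims Claims.C0030 Claims.C0030.UniversalCoverSplitting
open scoped Manifold ContDiff
open Set
universe u v
variable {n r₁ r₂ : ℕ}
open Set
open scoped Manifold ContDiff
variable {n r₁ r₂ : ℕ}
open Claims Claims.C0030 Claims.C0030.UniversalCoverSplitting

namespace Claimed.Agent.S0049

open Claimed.Agent.R021B in
theorem result (X : ComplexManifold.{u} n) [CompactSpace X.Carrier]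
    [ConnectedSpace X.Carrier] (hn : 2 ≤ n) (hr₁ : 0 < r₁) (hr₂ : 0 < r₂)
    (g : KahlerMetric X) (S : HolomorphicSplitting X r₁ r₂)
    (h₁ : Integrable S.projection) (h₂ : Integrable (complementaryProjection S))
    (Z : ComplexManifold.{v} n) (π : OrdinaryUniversalCover X Z) :
    ∃ (Y₁ : ComplexManifold.{v} r₁) (Y₂ : ComplexManifold.{v} r₂),
      ConnectedSpace Y₁.Carrier ∧ ConnectedSpace Y₂.Carrier ∧
      SimplyConnectedSpace Y₁.Carrier ∧ SimplyConnectedSpace Y₂.Carrier ∧
      CompatibleProduct S π Y₁ Y₂ := by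
  obtain ⟨bd⟩ := exists_bridgeData X g S h₁ h₂
  haveI := π.connected
  haveI := π.simplyConnected
  -- the tube property downstairs
  have hT : bd.atlas.TubeProp ∧ bd.atlas.swap.TubeProp := by
    letI : MetricSpace X.Carrier := TopologicalSpace.metrizableSpaceMetric X.Carrier
    exact ⟨tubeProp bd.metric, tubeProp bd.metric.swap⟩
  -- the lifted atlas
  obtain ⟨𝔹, hlift, -⟩ := exists_isLiftOf bd.atlas π.covering
  have hTZ : 𝔹.TubeProp := hlift.tubeProp π.covering hT.1
  have hTZ' : 𝔹.swap.TubeProp := hlift.swap.tubeProp π.covering hT.2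
  haveI : LocallyPathConnectedSpace Z.Carrier := ChartedSpace.locPathConnectedSpace (Model n) Z.Carrier
  obtain ⟨P⟩ := exists_prodData' 𝔹 hTZ hTZ'
  exact ⟨P.Y₁, P.Y₂, P.connectedSpace_Y₁, P.connectedSpace_Y₂, P.simplyConnectedSpace_Y₁,
    P.simplyConnectedSpace_Y₂, P.compatibleProduct π bd hlift⟩

end Claimed.Agent.S0049
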