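import Claimed.Statements.S0050
import Claimed.Agent.R021.Pk03

set_option autoImplicit false
open Claims Claims.C0031 Claims.C0031.SplitTangent
open scoped Manifold ContDiff LinearAlgebra.Projectivization
open Set Bundle
universe u
open Claims Claims.C0031 Claims.C0031.SplitTangent

namespace Claimed.Agent.S0050

theorem result : IntegrabilityStatement.{u} := by
  exact Claimed.Agent.R021.Main.main

end Claimed.Agent.S0050
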