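import Claimed.Statements.S0071
import Claimed.Agent.R032.Ratio
import Claimed.Agent.R032.BodyH32

set_option autoImplicit false
open Claims Claims.C0051 Claims.C0051.ProjectionCounterexample
open Set MeasureTheory
open scoped RealInnerProductSpace
open Claims Claims.C0051 Claims.C0051.ProjectionCounterexample

namespace Claimed.Agent.S0071

open Claimed.Agent.R032 Claimed.Agent.R032.H32

theorem shadowF (a b : ℕ) (u : EE (a + b)) (hu : ‖u‖ = 1) :
    (volume ((ℝ ∙ u)ᗮ.orthogonalProjectionOnto '' blk a b (cs a 0 1) (cs b 0 1))).toReal =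
      (a * S (fstB u) + b * S (sndB u)) / (a.factorial * b.factorial) := by
  have h := shadow_PP a b (isCompact_PP a b) (convex_PP a b) u hu
  unfold shadow PP at h
  rw [h]
  ring

theorem bodyF (a b : ℕ) : IsCompact (blk a b (cs a 0 1) (cs b 0 1)) ∧
    Convex ℝ (blk a b (cs a 0 1) (cs b 0 1)) ∧ (interior (blk a b (cs a 0 1) (cs b 0 1))).Nonempty :=
  ⟨isCompact_PP a b, convex_PP a b, interior_PP a b⟩

theorem ratio_blk (a b n : ℕ) (hab : a + b = n + 1) :
    @ratio (a + b) (blk a b (cs a 0 1) (cs b 0 1)) =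
      (((a + 1) * (a / (a.factorial * b.factorial) : ℝ) ^ a) *
        ((b + 1) * (b / (a.factorial * b.factorial) : ℝ) ^ b)) /
        (1 / (a.factorial * b.factorial) : ℝ) ^ n := by
  have hn : a + b - 1 = n := by omega
  unfold ratio bodyVolume
  rw [hn, volume_KK]
  congr 1
  rw [← volume_zz a b _ _ (by positivity) (by positivity)]
  congr 2
  unfold projectionBody
  apply projbody_of_shadow
  intro u hu
  unfold projectionVolume project
  rw [hn, hausdorff_bridge (by simp [hab]) u (by rintro rfl; simp at hu), shadowF a b u hu]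
  ring

theorem simplex_eq_blk : simplex 20 = blk 20 0 (cs 20 0 1) (cs 0 0 1) := by
  unfold simplex
  rw [simplex_eq]
  ext x
  simp only [blk, cs, fstB, sndB, mem_ofPred_eq]
  simp

theorem result :
    ¬ (∀ P : Set (E 20), IsConvexBody P → ratio P ≤ ratio (simplex 20)) := by
  intro h
  have h1 := h (blk 10 10 (cs 10 0 1) (cs 10 0 1)) (bodyF 10 10)
  rw [simplex_eq_blk] at h1
  have e1 := ratio_blk 10 10 19 (by norm_num)
  have e2 := ratio_blk 20 0 19 (by norm_num)
  have h2 : @ratio (10 + 10) (blk 10 10 (cs 10 0 1) (cs 10 0 1)) ≤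
      @ratio (20 + 0) (blk 20 0 (cs 20 0 1) (cs 0 0 1)) := h1
  rw [e1, e2] at h2
  norm_num [Nat.factorial] at h2

end Claimed.Agent.S0071
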