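import Claimed.Statements.S0072
import Claimed.Agent.R032.Body
import Claimed.Agent.R032.ProjVol

set_option autoImplicit false
open Claims Claims.C0052 Claims.C0052.Paper092
open Set MeasureTheory
open scoped RealInnerProductSpace Pointwise
open Claims Claims.C0052 Claims.C0052.Paper092

namespace Claimed.Agent.S0072

open Claimed.Agent.R032 in
theorem witness_eq : productWitness = PP 10 10 := (PP_eq_prod 10 10).symm

open Claimed.Agent.R032 in
theorem projectionBody_eq (K : Set (Euclidean 20)) :
    projectionBody K = projBody (d := 20) K := by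
  ext y
  constructor
  · intro hy u hu
    have h := hy u
    unfold brightness at h
    rw [hu, one_mul] at h
    exact h
  · intro hy u
    by_cases hu : u = 0
    · subst hu
      simp [brightness]
    · have hn : 0 < ‖u‖ := norm_pos_iff.2 hu
      have h1 := hy (‖u‖⁻¹ • u) (by rw [norm_smul, norm_inv, norm_norm]; field_simp)
      have h2 : shadow (d := 20) K (‖u‖⁻¹ • u) = shadow (d := 20) K u :=
        shadow_smul u (inv_ne_zero hn.ne') K
      rw [h2, real_inner_smul_left] at h1
      have h3 := mul_le_mul_of_nonneg_left h1 hn.le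
      have e1 : ‖u‖ * (‖u‖⁻¹ * ⟪u, y⟫) = ⟪u, y⟫ := by field_simp
      rw [e1] at h3
      exact h3

open Claimed.Agent.R032 in
theorem vol_witness : (volume productWitness).toReal =
    1 / ((Nat.factorial 10 : ℝ) * (Nat.factorial 10 : ℝ)) := by
  have h : volume productWitness =
      ENNReal.ofReal (1 / ((Nat.factorial 10 : ℝ) * (Nat.factorial 10 : ℝ))) := by
    rw [witness_eq]; exact volume_PP 10 10
  rw [h, ENNReal.toReal_ofReal (by positivity)]

open Claimed.Agent.R032 in
theorem vol_projBody : (volume (projectionBody productWitness)).toReal =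
    (((10 : ℕ) + 1 : ℝ) * (((10 : ℕ) : ℝ) / ((Nat.factorial 10 : ℝ) * (Nat.factorial 10 : ℝ))) ^ 10) *
      (((10 : ℕ) + 1 : ℝ) * (((10 : ℕ) : ℝ) / ((Nat.factorial 10 : ℝ) * (Nat.factorial 10 : ℝ))) ^ 10) := by
  have h : volume (projectionBody productWitness) = ENNReal.ofReal
      ((((10 : ℕ) + 1 : ℝ) * (((10 : ℕ) : ℝ) / ((Nat.factorial 10 : ℝ) * (Nat.factorial 10 : ℝ))) ^ 10) *
      (((10 : ℕ) + 1 : ℝ) * (((10 : ℕ) : ℝ) / ((Nat.factorial 10 : ℝ) * (Nat.factorial 10 : ℝ))) ^ 10)) := by
    rw [projectionBody_eq, witness_eq]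
    exact volume_projBody_PP 10 10 (isCompact_PP 10 10) (convex_PP 10 10)
  rw [h, ENNReal.toReal_ofReal (by positivity)]

theorem ratio_eq : normalizedProjectionVolume productWitness / simplexConstant 20 =
    (22355476 : ℝ) / 22020096 := by
  unfold normalizedProjectionVolume simplexConstant
  rw [vol_projBody, vol_witness]
  simp only [Nat.factorial]
  norm_num

theorem result :
    (IsCompact productWitness ∧ Convex ℝ productWitness ∧
      (interior productWitness).Nonempty) ∧
    normalizedProjectionVolume productWitness / simplexConstant 20 =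
      (121 * (Nat.choose 20 10 : ℝ)) / (21 * (2 : ℝ) ^ 20) ∧
    normalizedProjectionVolume productWitness / simplexConstant 20 =
      (22355476 : ℝ) / 22020096 ∧
    1 < normalizedProjectionVolume productWitness / simplexConstant 20 ∧
    (volume (projectionBody productWitness)).toReal >
      simplexConstant 20 * (volume productWitness).toReal ^ 19 := by
  refine ⟨⟨?_, ?_, ?_⟩, ?_, ratio_eq, ?_, ?_⟩
  · rw [witness_eq]; exact Claimed.Agent.R032.isCompact_PP 10 10
  · rw [witness_eq]; exact Claimed.Agent.R032.convex_PP 10 10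
  · rw [witness_eq]; exact Claimed.Agent.R032.interior_PP_nonempty 10 10
  · rw [ratio_eq]
    have : (Nat.choose 20 10 : ℝ) = 184756 := by
      have : Nat.choose 20 10 = 184756 := by decide +kernel
      rw [this]; norm_num
    rw [this]; norm_num
  · rw [ratio_eq]; norm_num
  · rw [vol_projBody, vol_witness]
    unfold simplexConstant
    simp only [Nat.factorial]
    norm_num

end Claimed.Agent.S0072
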