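import Claimed.Statements.S0162
import Claimed.Agent.R074.Pk01

set_option autoImplicit false
open Claims Claims.C0131 Claims.C0131.RepeatedLocalization
open MeasureTheory ProbabilityTheory Set
open scoped BigOperators ENNReal
open Claims Claims.C0131 Claims.C0131.RepeatedLocalization

namespace Claimed.Agent.S0162

theorem result : MainStatement := by
  exact Claimed.Agent.R074.H957.mainStatement

end Claimed.Agent.S0162
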