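import Claimed.Statements.S0167
import Claimed.Agent.R074.Pk05

set_option autoImplicit false
open Claims Claims.C0133 Claims.C0133.NoiselessRegression
open MeasureTheory ProbabilityTheory Set Filter
open scoped ENNReal NNReal RealInnerProductSpace
universe u
open Claims Claims.C0133 Claims.C0133.NoiselessRegression

namespace Claimed.Agent.S0167

theorem result : SubquadraticMemory.{u} ∧ FixedQuadraticMemory.{u} := by
  exact ⟨Claimed.Agent.R074.subquadraticMemory.{u}, Claimed.Agent.R074.fixedQuadraticMemory.{u}⟩

end Claimed.Agent.S0167
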