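import Claimed.Statements.S0168
import Claimed.Agent.R074.Pk07
import Claimed.Agent.R074.Pk09

set_option autoImplicit false
open Claims Claims.C0134 Claims.C0134.ProjectionMoments
open MeasureTheory ProbabilityTheory Set Filter InnerProductSpace
open scoped ENNReal NNReal RealInnerProductSpace Topology
universe u
open NoiselessRegression NoiselessRegression.FiniteKernelLearner
open MeasureTheory ProbabilityTheory Set Filter InnerProductSpace
open scoped ENNReal NNReal RealInnerProductSpace Topology
open Claims Claims.C0134 Claims.C0134.ProjectionMoments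

namespace Claimed.Agent.S0168

theorem result : MainStatement.{u} :=
  ⟨Claimed.Agent.R074.S168.integratedFrameMoment,
    Claimed.Agent.R074.S168.normalizedUnitBallMoment,
    Claimed.Agent.R074.S168.allRadiiSphereMoment,
    Claimed.Agent.R074.S168Q.positiveCapDomination_of
      Claimed.Agent.R074.S168.normalizedUnitBallMoment,
    Claimed.Agent.R074.S168.deterministicOffsetDensity,
    Claimed.Agent.R074.S168Q.allRadiiBlockBound,
    Claimed.Agent.R074.S168Q.haarStreamingCost.{u},
    Claimed.Agent.R074.S168Q.rieszStreamingCost.{u},
    Claimed.Agent.R074.S168Q.capFixedStoppingCost.{u},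
    Claimed.Agent.R074.S168Q.capTotalStoppingCost.{u},
    Claimed.Agent.R074.S168Q.capFixedStoppingAsymptotic.{u},
    Claimed.Agent.R074.S168Q.capTotalStoppingAsymptotic.{u},
    Claimed.Agent.R074.S168Q.kernelModelBridge,
    Claimed.Agent.R074.S168Q.subquadraticMemoryWithPointwise.{u},
    Claimed.Agent.R074.S168Q.fixedQuadraticMemory'.{u}⟩

end Claimed.Agent.S0168
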