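import Claimed.Statements.S0169
import Claimed.Agent.R074.Pk11

set_option autoImplicit false
open Claims Claims.C0135 Claims.C0135.SubsphereCurrent
open MeasureTheory ProbabilityTheory Set Filter
open scoped ENNReal NNReal RealInnerProductSpace
open MeasureTheory ProbabilityTheory Set
open scoped ENNReal NNReal RealInnerProductSpace
open MeasureTheory ProbabilityTheory Set
open scoped ENNReal NNReal RealInnerProductSpace
open MeasureTheory ProbabilityTheory Set
open scoped ENNReal NNReal RealInnerProductSpace
open MeasureTheory ProbabilityTheory Set Filter
open scoped ENNReal NNReal RealInnerProductSpace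
open MeasureTheory ProbabilityTheory Set Filter
open scoped ENNReal NNReal RealInnerProductSpace
open MeasureTheory ProbabilityTheory Set
open scoped ENNReal NNReal RealInnerProductSpace
open MeasureTheory ProbabilityTheory Set Filter
open scoped ENNReal NNReal RealInnerProductSpace
open MeasureTheory ProbabilityTheory Set
open scoped ENNReal NNReal RealInnerProductSpace
open MeasureTheory ProbabilityTheory Set
open scoped ENNReal NNReal RealInnerProductSpace
open MeasureTheory ProbabilityTheory Set
open scoped ENNReal NNReal RealInnerProductSpace
universe u v w
open Claims Claims.C0135 Claims.C0135.SubsphereCurrent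

namespace Claimed.Agent.S0169

theorem result : CurrentMainScope.{u,v,w} :=
  Claimed.Agent.R074.S169.currentMainScope.{u,v,w}

end Claimed.Agent.S0169
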