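import Claimed.Statements.S0176
import Claimed.Agent.R079.Pk04

set_option autoImplicit false
open Claims Claims.C0142 Claims.C0142.EntropyRateDimension
universe z0
open scoped BigOperators ENNReal
open MeasureTheory
open MeasureTheory
open Claims Claims.C0142 Claims.C0142.EntropyRateDimension

namespace Claimed.Agent.S0176

theorem result {ι : Type z0} [Fintype ι] [Nonempty ι]
    (S : System ι) (μ : Measure ℝ) [IsProbabilityMeasure μ]
    (hμ : S.SelfSimilar μ) :
    lowerHausdorffDimension μ = ENNReal.ofReal (min 1 (S.entropyRate / S.lyapunov)) := by
  exact Claimed.Agent.R079.main S hμ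

end Claimed.Agent.S0176
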