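import Claimed.Statements.S0179
import Claimed.Agent.R080.Pk01
import Claimed.Agent.R080.Pk02

set_option autoImplicit false
open Claims Claims.C0144 Claims.C0144.Problem326
open Claims Claims.C0144 Claims.C0144.Problem326

namespace Claimed.Agent.S0179

theorem result :
    ∀ (d : ℕ) (N : ReactionNetwork d) (κ : Reaction N → ℝ),
      0 < d → WeaklyReversible N → (∀ e, 0 < κ e) →
      ∀ x0 : Fin d → ℝ, PositiveState x0 →
      ∃ ε : ℝ, 0 < ε ∧ ε < 1 ∧
        (∃ x : ℝ → (Fin d → ℝ), IsGlobalForwardSolution N κ x0 x) ∧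
        ∀ x : ℝ → (Fin d → ℝ), IsGlobalForwardSolution N κ x0 x →
        ∀ t : ℝ, 0 ≤ t → ∀ i : Fin d, ε ≤ x t i ∧ x t i ≤ ε⁻¹ := by
  intro d N κ hd hW hκ x0 hx0
  obtain ⟨D, _, hD⟩ := Claimed.Agent.R080.exists_entry_bound N
  exact Claimed.Agent.R080.main_of_P N κ hW hκ D hD
    (Claimed.Agent.R080.theoremP_of_coreSpec hd (Claimed.Agent.R080.coreSpec d D)) x0 hx0

end Claimed.Agent.S0179
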