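import Claimed.Statements.S0181
import Claimed.Agent.R082.Assembly

set_option autoImplicit false
open Claims Claims.C0146 Claims.C0146.Problem340
open CategoryTheory
open Claims Claims.C0146 Claims.C0146.Problem340

namespace Claimed.Agent.S0181

theorem result :
    ∃ q : ℕ, 0 < q ∧ ∃ f : CounterexampleManifold q → CounterexampleManifold q, ∃ hf : IsC1SelfMap q f, Dynamics.coverEntropy f (Set.univ : Set (CounterexampleManifold q)) = (0 : EReal) ∧ (∃ v : RealSingularHomology 2 (CounterexampleManifold q), v ≠ 0 ∧ realHomologyMap 2 f hf.1 v = (2 : ℝ) • v) ∧ 0 < Real.log (2 : ℝ) ∧ Real.log (2 : ℝ) ≤ Real.log (totalRealHomologySpectralRadius f hf.1) ∧ ¬ Function.Bijective f ∧ 5 ≤ 2 * q + 3 := by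
  refine ⟨2, by norm_num, Claimed.Agent.R082.fMap, Claimed.Agent.R082.isC1SelfMap_fMap,
    Claimed.Agent.R082.entropy_zero, Claimed.Agent.R082.exists_eigenclass,
    Real.log_pos (by norm_num),
    Real.log_le_log (by norm_num) Claimed.Agent.R082.two_le_radius,
    Claimed.Agent.R082.not_bijective_fMap, by norm_num⟩

end Claimed.Agent.S0181
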