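import Claimed.Statements.S0184
import Claimed.Agent.R085.Pk01
import Claimed.Agent.R085.Pk02

set_option autoImplicit false
open Claims Claims.C0149 Claims.C0149.BorsukNine
open Claims Claims.C0149 Claims.C0149.BorsukNine

namespace Claimed.Agent.S0184

theorem result :
    IsCompact projectorSet ∧
    projectorSet ⊆ traceOneSymmetric ∧
    Metric.diam projectorSet = Real.sqrt 2 ∧
    ¬ HasTenSmallCover := by
  refine ⟨R085.isCompact_projectorSet, R085.projectorSet_subset, R085.diam_projectorSet, ?_⟩
  intro h
  obtain ⟨lam, eta, heta, hev, hsep⟩ := R085.exists_colouring h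
  obtain ⟨tau, sigma, rho, hrho, h1, h2, h3, h4⟩ := R085.exists_tau_glue lam eta heta hev hsep
  exact R085.PartB.partB lam hev tau sigma rho hrho h1 h2 h3 h4

end Claimed.Agent.S0184
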