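import Claimed.Statements.S0212
import Claimed.Agent.R099.Main

set_option autoImplicit false
open Claims Claims.C0177 Claims.C0177.TalagrandThreshold
open scoped BigOperators
variable {α : Type*} [Fintype α] [DecidableEq α]
open Claims Claims.C0177 Claims.C0177.TalagrandThreshold

namespace Claimed.Agent.S0212

theorem result [Nonempty α]
    (F : Family α) (_hF : F.Nonempty) (hproper : F ≠ Finset.univ)
    (hIncreasing : Increasing F) :
    qf F ≤ ((25 : ℝ) * (512 : ℝ) ^ 4) * q F := by
  have hbdd : BddAbove (integralFeasible F) := ⟨1, fun p hp => hp.2.1⟩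
  have hq0 : 0 ≤ q F := Real.sSup_nonneg (fun p hp => hp.1)
  apply Real.sSup_le
  · intro p hp
    obtain ⟨hp0, hp1, hfs⟩ := hp
    rcases hp0.eq_or_lt with h0 | hpos
    · rw [← h0]; positivity
    · have hs := Claimed.Agent.R099.small_of_fractionalSmall hpos hp1 F hfs
      have hs' : Small (p / ((25 : ℝ) * (512 : ℝ) ^ 4)) F := by
        refine Claimed.Agent.R099.small_mono (by positivity) ?_ hs
        apply div_le_div_of_nonneg_left hpos.le (by positivity)
        norm_num
      have hmem : p / ((25 : ℝ) * (512 : ℝ) ^ 4) ∈ integralFeasible F := by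
        refine ⟨by positivity, ?_, hs'⟩
        rw [div_le_one (by positivity)]
        refine hp1.trans ?_
        norm_num
      have hle : p / ((25 : ℝ) * (512 : ℝ) ^ 4) ≤ q F := le_csSup hbdd hmem
      rw [div_le_iff₀ (by positivity)] at hle
      linarith
  · positivity

end Claimed.Agent.S0212
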