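import Claimed.Statements.S0213
import Claimed.Agent.R100.Pk02

set_option autoImplicit false
open Claims Claims.C0178 Claims.C0178.LeanBlast Claims.C0178.LeanBlast.SecondKahnKalai
universe u
open Claims Claims.C0178 Claims.C0178.LeanBlast Claims.C0178.LeanBlast.SecondKahnKalai

namespace Claimed.Agent.S0213

theorem result (n : ℕ) (V : Type u) [Fintype V]
    (H : SimpleGraph V) (hn : 2 ≤ n) (hcard : Fintype.card V ≤ n)
    (hedge : 1 ≤ edgeCount H) : SecondKahnKalaiBounds n H := by
  exact Claimed.Agent.R100.secondKK n V H hn hcard hedge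

end Claimed.Agent.S0213
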