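import Claimed.Statements.S0214
import Claimed.Agent.R101.Pk05

set_option autoImplicit false
open Claims Claims.C0179 Claims.C0179.CoboundaryExpanders
open scoped BigOperators
open Filter
open Claims Claims.C0179 Claims.C0179.CoboundaryExpanders

namespace Claimed.Agent.S0214

theorem result : MainStatement := Claimed.Agent.R101.final

end Claimed.Agent.S0214
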