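import Claimed.Statements.S0233
import Claimed.Agent.R115.Pk07

set_option autoImplicit false
open Claims Claims.C0197 Claims.C0197.Lech
universe u
open Claims Claims.C0197 Claims.C0197.Lech

namespace Claimed.Agent.S0233

theorem result : DuttaDomainClaim.{u} := by
  intro D _ _ _ _ _ p _ _ F hF
  exact Claimed.Agent.R115.main D p F hF

end Claimed.Agent.S0233
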