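import Claimed.Statements.S0239
import Claimed.Agent.R118.Pk04

set_option autoImplicit false
open Claims Claims.C0203 Claims.C0203.LittleFinitistic
open CategoryTheory
universe u
variable (A : Type u) [Ring A]
open Claims Claims.C0203 Claims.C0203.LittleFinitistic

namespace Claimed.Agent.S0239

theorem result :
    ∃ (Λ : Type) (_ : Ring Λ) (_ : Algebra ℂ Λ),
      FiniteDimensional ℂ Λ ∧
      littleFinitisticDimension Λ = ⊤ ∧ bigFinitisticDimension Λ = ⊤ ∧
      littleFinitisticDimension Λᵐᵒᵖ = 0 ∧ bigFinitisticDimension Λᵐᵒᵖ = 0 ∧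
      ¬ InjectivesGenerate Λ ∧ InjectivesGenerate Λᵐᵒᵖ := by
  exact Claimed.Agent.R118.S239Asm.statement_of_rickard
    (fun L _ _ _ h => Claimed.Agent.R118.S239Rickard.not_injectivesGenerate_of_pd ℂ L h)

end Claimed.Agent.S0239
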