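-- Statement S0240 (row 118): a finite dimensional ℂ-algebra with infinite little finitistic dimension.
import Claimed.Statements.S0240
import Claimed.Agent.R118.Pk03

set_option autoImplicit false
open Claims Claims.C0204 Claims.C0204.LittleFinitistic Claims.C0204.LittleFinitistic.Main
open CategoryTheory
universe u
open Claims Claims.C0204 Claims.C0204.LittleFinitistic Claims.C0204.LittleFinitistic.Main

namespace Claimed.Agent.S0240

theorem result :
    ∃ (A : Type) (_ : Ring A) (_ : Algebra ℂ A),
      FiniteDimensional ℂ A ∧ littleFinitisticDimension A = ⊤ ∧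
        ∀ m : ℕ, 0 < m → ∃ N : ModuleCat.{0} A, Module.Finite A N ∧
          ((2*m-2 : ℕ) : WithBot ℕ∞) ≤ projectiveDimension N ∧
            projectiveDimension N < ⊤ :=
  Claimed.Agent.R118.main_S0240

end Claimed.Agent.S0240
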