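import Claimed.Statements.S0243
import Claimed.Agent.R120.Pk05

set_option autoImplicit false
open Claims Claims.C0207 Claims.C0207.Saxl
open scoped TensorProduct
universe z0 z1
open Claims Claims.C0207 Claims.C0207.Saxl

namespace Claimed.Agent.S0243

theorem result : SaxlConjecture :=
  Claimed.Agent.R120.H334.saxl

end Claimed.Agent.S0243
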