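import Claimed.Statements.S0244
import Claimed.Agent.R120.Pk19

set_option autoImplicit false
open Claims Claims.C0208 Claims.C0208.UniversalTensorSquares
open scoped TensorProduct
universe z0 z1
universe u
open Claims Claims.C0208 Claims.C0208.UniversalTensorSquares

namespace Claimed.Agent.S0244

theorem result
    (n : ℕ) (hn : 0 < n) (h2 : n ≠ 2) (h4 : n ≠ 4) (h9 : n ≠ 9) :
    ∃ (lam : YoungDiagram) (hlam : lam.card = n),
      (∀ (ν : YoungDiagram) (hν : ν.card = n),
        0 < Saxl.kronecker (Saxl.canonicalTableau lam hlam)
          (Saxl.canonicalTableau lam hlam) (Saxl.canonicalTableau ν hν)) ∧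
      Representation.IsIrreducible (Saxl.spechtRep (Saxl.canonicalTableau lam hlam)) ∧
      ∀ (V : Type u) [AddCommGroup V] [Module ℂ V] [Module.Finite ℂ V]
        (ρ : Representation ℂ (Equiv.Perm (Fin n)) V) [Representation.IsIrreducible ρ],
        ∃ F : Representation.IntertwiningMap ρ
          ((Saxl.spechtRep (Saxl.canonicalTableau lam hlam)).tprod
            (Saxl.spechtRep (Saxl.canonicalTableau lam hlam))),
          Function.Injective F :=
  Claimed.Agent.R120.HK.S0244_of_univ
    (Claimed.Agent.R120.Stg.surj_of_small Claimed.Agent.R120.Base.small4) n hn h2 h4 h9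

end Claimed.Agent.S0244
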