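import Claimed.Statements.S0245
import Mathlib.Data.Fintype.Pi
import Mathlib.Data.Fintype.EquivFin
import Mathlib.SetTheory.Cardinal.NatCard
import Mathlib.Data.Finite.Prod
import Mathlib.Data.Finset.Piecewise
import Mathlib.Order.Hom.Lattice

set_option autoImplicit false
open Claims Claims.C0209 Claims.C0209.FiniteCongruence
open Claims Claims.C0209 Claims.C0209.FiniteCongruence

namespace Claimed.Agent.S0245

section Backward

variable {Lat : Type} [Lattice Lat] [OrderBot Lat] {n : ℕ}

def levelSetoid (color : Fin n → Fin n → Lat) (h : IsGraphWitness color) (x : Lat) :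
    Setoid (Fin n) where
  r l r := color l r ≤ x
  iseqv :=
    { refl := fun a => by rw [(h.2.1 a a).2 rfl]; exact bot_le
      symm := fun {a b} hab => by rw [h.1 b a]; exact hab
      trans := fun {a b c} hab hbc => le_trans (h.2.2.1 a c b) (sup_le hab hbc) }

noncomputable def admAlg (color : Fin n → Fin n → Lat) : Algebra (Fin n) where
  numOps := Nat.card {p : Fin n → Fin n // Admissible color p}
  arity := fun _ => 1
  op := fun i v => ((Finite.equivFin {p : Fin n → Fin n // Admissible color p}).symm i).1 (v 0)

omit [OrderBot Lat] in
theorem compatible_admAlg_iff (color : Fin n → Fin n → Lat) (rel : Setoid (Fin n)) :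
    Compatible (admAlg color) rel ↔
      ∀ p, Admissible color p → ∀ a b, rel a b → rel (p a) (p b) := by
  constructor
  · intro h p hp a b hab
    have := h ((Finite.equivFin {p : Fin n → Fin n // Admissible color p}) ⟨p, hp⟩)
      (fun _ => a) (fun _ => b) (fun _ => hab)
    simpa [admAlg] using this
  · intro h index left right hlr
    exact h _ ((Finite.equivFin {p : Fin n → Fin n // Admissible color p}).symm index).2 _ _
      (hlr (0 : Fin 1))

theorem backward (hn : 0 < n) (color : Fin n → Fin n → Lat) (h : IsGraphWitness color) :
    Representable Lat := by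
  classical
  refine ⟨n, hn, admAlg color, ?_⟩
  let f : Lat → Congruence (admAlg color) := fun x =>
    ⟨levelSetoid color h x, (compatible_admAlg_iff color _).2
      (fun p hp a b hab => le_trans (hp a b) hab)⟩
  have hf : ∀ x y, f x ≤ f y ↔ x ≤ y := by
    intro x y
    constructor
    · intro hxy
      by_contra hcon
      obtain ⟨l, r, h1, h2⟩ := h.2.2.2.1 x y hcon
      exact h2 (hxy h1)
    · intro hxy a b hab
      exact le_trans hab hxy
  have hsurj : Function.Surjective f := by
    intro θ
    let seeds : Finset (Fin n × Fin n) := Finset.univ.filter (fun e => θ.1 e.1 e.2)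
    have hne : seeds.Nonempty :=
      ⟨(⟨0, hn⟩, ⟨0, hn⟩), by
        simp only [seeds, Finset.mem_filter, Finset.mem_univ, true_and]
        exact θ.1.refl' _⟩
    refine ⟨seeds.sup (fun edge => color edge.1 edge.2), ?_⟩
    apply le_antisymm
    · intro a b hab
      have hc := h.2.2.2.2 seeds hne a b hab
      have hθ := (compatible_admAlg_iff color θ.1).1 θ.2
      clear hab
      induction hc with
      | rel x y hxy =>
        obtain ⟨p, hp, edge, hedge, rfl, rfl⟩ := hxy
        apply hθ p hp
        simpa [seeds] using hedge
      | refl x => exact θ.1.refl' x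
      | symm x y _ ih => exact θ.1.symm' ih
      | trans x y z _ _ ih1 ih2 => exact θ.1.trans' ih1 ih2
    · intro a b hab
      have : (a, b) ∈ seeds := by simpa [seeds] using hab
      exact Finset.le_sup (f := fun edge : Fin n × Fin n => color edge.1 edge.2) this
  exact ⟨RelIso.ofSurjective (OrderEmbedding.ofMapLEIff f hf) hsurj⟩

end Backward

section Forward

variable {C : Type}

def cgSetoid (alg : Algebra C) (a b : C) : Setoid C where
  r x y := ∀ rel : Setoid C, Compatible alg rel → rel a b → rel x y
  iseqv :=
    ⟨fun x rel _ _ => rel.refl' x, fun h rel h1 h2 => rel.symm' (h rel h1 h2),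
      fun h h' rel h1 h2 => rel.trans' (h rel h1 h2) (h' rel h1 h2)⟩

def cg (alg : Algebra C) (a b : C) : Congruence alg :=
  ⟨cgSetoid alg a b, fun index left right hlr rel h1 h2 =>
    h1 index left right (fun coord => hlr coord rel h1 h2)⟩

theorem cg_le_iff (alg : Algebra C) (a b : C) (θ : Congruence alg) :
    cg alg a b ≤ θ ↔ θ.1 a b := by
  constructor
  · intro h
    exact h (fun rel _ h2 => h2)
  · intro h x y hxy
    exact hxy θ.1 θ.2 h

theorem eqvGen_map {r : C → C → Prop} (q : C → C) (hq : ∀ a b, r a b → r (q a) (q b))
    {a b : C} (h : Relation.EqvGen r a b) : Relation.EqvGen r (q a) (q b) := by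
  induction h with
  | rel x y hxy => exact Relation.EqvGen.rel _ _ (hq _ _ hxy)
  | refl x => exact Relation.EqvGen.refl _
  | symm x y _ ih => exact Relation.EqvGen.symm _ _ ih
  | trans x y z _ _ ih1 ih2 => exact Relation.EqvGen.trans _ _ _ ih1 ih2

theorem coordwise {k : ℕ} (f : (Fin k → C) → C) (R : Setoid C)
    (hR : ∀ (c : Fin k → C) (i : Fin k) (a b : C), R a b →
      R (f (Function.update c i a)) (f (Function.update c i b)))
    (left right : Fin k → C) (hlr : ∀ i, R (left i) (right i)) : R (f left) (f right) := by
  classical
  have key : ∀ s : Finset (Fin k), R (f left) (f (s.piecewise right left)) := by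
    intro s
    induction s using Finset.induction_on with
    | empty =>
      rw [Finset.piecewise_empty]
    | insert a s ha ih =>
      refine R.trans' ih ?_
      rw [Finset.piecewise_insert]
      have h1 := hR (s.piecewise right left) a (left a) (right a) (hlr a)
      have h2 : Function.update (s.piecewise right left) a (left a) = s.piecewise right left := by
        rw [Function.update_eq_self_iff, Finset.piecewise_eq_of_notMem _ _ _ ha]
      rwa [h2] at h1
  have := key Finset.univ
  rwa [Finset.piecewise_univ] at this

variable {Lat : Type} [Lattice Lat] [OrderBot Lat] {n : ℕ}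

theorem forward (hn : 0 < n) (alg : Algebra (Fin n)) (e : Lat ≃o Congruence alg) :
    HasGraphWitness Lat := by
  classical
  refine ⟨n, hn, fun l r => e.symm (cg alg l r), ?_⟩
  have hle : ∀ l r x, e.symm (cg alg l r) ≤ x ↔ (e x).1 l r := by
    intro l r x
    rw [e.symm_apply_le, cg_le_iff]
  refine ⟨?_, ?_, ?_, ?_, ?_⟩
  · intro l r
    apply le_antisymm
    · exact (hle _ _ _).2 ((e _).1.symm' ((hle _ _ _).1 le_rfl))
    · exact (hle _ _ _).2 ((e _).1.symm' ((hle _ _ _).1 le_rfl))
  · intro l r
    constructor
    · intro h
      have h1 : (e ⊥).1 l r := (hle _ _ _).1 (le_of_eq h)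
      let botCon : Congruence alg := ⟨⊥, fun index left right hlr => by
        have : left = right := funext hlr
        rw [this]⟩
      have h2 : e ⊥ ≤ botCon := by
        rw [← e.le_symm_apply]
        exact bot_le
      exact h2 h1
    · rintro rfl
      apply le_antisymm _ bot_le
      exact (hle _ _ _).2 ((e _).1.refl' _)
  · intro l r m
    refine (hle _ _ _).2 ((e _).1.trans' (y := m) ?_ ?_)
    · exact (hle _ _ _).1 le_sup_left
    · exact (hle _ _ _).1 le_sup_right
  · intro lower upper hlu
    have h1 : ¬ e lower ≤ e upper := by
      rwa [e.le_iff_le]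
    by_contra hcon
    apply h1
    intro a b hab
    by_contra hab'
    exact hcon ⟨a, b, (hle _ _ _).2 hab, fun h => hab' ((hle _ _ _).1 h)⟩
  · intro seeds _ l r hlr
    set color : Fin n → Fin n → Lat := fun l r => e.symm (cg alg l r) with hcolor
    have hmark : ∀ q, Admissible color q → ∀ a b, Marked color seeds a b →
        Marked color seeds (q a) (q b) := by
      rintro q hq a b ⟨p, hp, edge, hedge, rfl, rfl⟩
      exact ⟨q ∘ p, fun x y => le_trans (hq _ _) (hp _ _), edge, hedge, rfl, rfl⟩
    let R : Setoid (Fin n) := Relation.EqvGen.setoid (Marked color seeds)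
    have hcompat : Compatible alg R := by
      intro index left right hlr'
      apply coordwise (alg.op index) R _ left right hlr'
      intro c i a b hab
      apply eqvGen_map (fun x => alg.op index (Function.update c i x)) _ hab
      apply hmark
      intro x y
      refine (hle _ _ _).2 ?_
      rw [e.apply_symm_apply]
      apply (cg alg x y).2
      intro coord
      by_cases hc : coord = i
      · subst hc
        simp only [Function.update_self]
        exact (cg_le_iff _ _ _ _).1 le_rfl
      · simp only [Function.update_of_ne hc]
        exact Setoid.refl' _ _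
    let θ : Congruence alg := ⟨R, hcompat⟩
    have hsup : seeds.sup (fun edge => color edge.1 edge.2) ≤ e.symm θ := by
      apply Finset.sup_le
      intro edge hedge
      refine (hle _ _ _).2 ?_
      rw [e.apply_symm_apply]
      exact Relation.EqvGen.rel _ _ ⟨id, fun x y => le_refl _, edge, hedge, rfl, rfl⟩
    have := (hle _ _ _).1 (le_trans hlr hsup)
    rw [e.apply_symm_apply] at this
    exact this

end Forward

theorem result (Lat : Type) [Fintype Lat] [Lattice Lat] [OrderBot Lat] :
    Representable Lat ↔ HasGraphWitness Lat := by
  constructor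
  · rintro ⟨n, hn, alg, ⟨e⟩⟩
    exact forward hn alg e
  · rintro ⟨n, hn, color, h⟩
    exact backward hn color h

end Claimed.Agent.S0245
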