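import Claimed.Statements.S0248
import Claimed.Agent.R123.FHFinal

set_option autoImplicit false
open Claims Claims.C0212 Claims.C0212.Problem346
open scoped BigOperators
universe u
open Claims Claims.C0212 Claims.C0212.Problem346

namespace Claimed.Agent.S0248

theorem result :
    ∀ (V : Type u) [AddCommGroup V] [Module ℂ V] [FiniteDimensional ℂ V] (a b : ℕ), 2 ≤ a → a * (a - 1) ≤ b → ∃ μ : SymPow b (SymPow a V) →ₗ[ℂ] SymPow a (SymPow b V), IsFoulkesMap a b V μ ∧ Function.Surjective μ ∧ ∀ ν : SymPow b (SymPow a V) →ₗ[ℂ] SymPow a (SymPow b V), IsFoulkesMap a b V ν → ν = μ := by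
  intro V _ _ _ a b ha hb
  exact Claimed.Agent.R123.FH.final V a b ha hb

end Claimed.Agent.S0248
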