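import Claimed.Statements.S0265
import Claimed.Agent.R132.Pk09
import Claimed.Agent.R132.Pk10
import Claimed.Agent.R132.Pk11

set_option autoImplicit false
open Claims Claims.C0227 Claims.C0227.SphericalPerceptronFreeEnergy
open MeasureTheory ProbabilityTheory Filter Set
open scoped ENNReal NNReal Topology BigOperators BoundedContinuousFunction
open Claims Claims.C0227 Claims.C0227.SphericalPerceptronFreeEnergy

namespace Claimed.Agent.S0265

theorem result (P : Measure BrownianPath) [IsProbabilityMeasure P]
    (hB : IsBrownianReal brownianEval P)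
    (α β : ℝ) (hα : 0 < α) (hβ : 0 < β) (φ : ℝ →ᵇ ℝ) :
    ∃ p : ℝ, variationalValue P α β φ = (p : EReal) ∧
      Tendsto (fun N : ℕ => expectedPressure α β φ (N + 1)) atTop (𝓝 p) ∧
      ∀ ε : ℝ, 0 < ε →
        Tendsto (fun N : ℕ => patternLaw α (N + 1)
          {g | ε < |pressure α β φ (N + 1) g - p|}) atTop (𝓝 0) := by
  exact Claimed.Agent.R132.main_top Claimed.Agent.R132.Ext.syncC Claimed.Agent.R132.Ext.dphiC
    Claimed.Agent.R132.e3Core P hB α β hα φ

end Claimed.Agent.S0265
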