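import Claimed.Statements.S0266
import Claimed.Agent.R133.Top

set_option autoImplicit false
open Claims Claims.C0228 Claims.C0228.CriticalSK
open scoped BigOperators Topology NNReal ENNReal
open MeasureTheory ProbabilityTheory Filter
open Claims Claims.C0228 Claims.C0228.CriticalSK

namespace Claimed.Agent.S0266

theorem result :
    (∀ t : ℕ → ℝ, (∀ n, 0 ≤ t n) →
      Tendsto (fun n => t n / (n : ℝ) ^ ((2 : ℝ) / 3)) atTop (𝓝 0) →
      ∀ δ : ℝ, 0 < δ →
        Tendsto (fun n => (disorderLaw n {W |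
          δ ≤ |continuousGoodMass W (t n) - 1|}).toReal) atTop (𝓝 0)) ∧
    (∀ k : ℕ → ℕ,
      Tendsto (fun n => (k n : ℝ) / (n : ℝ) ^ ((5 : ℝ) / 3)) atTop (𝓝 0) →
      ∀ δ : ℝ, 0 < δ →
        Tendsto (fun n => (disorderLaw n {W |
          δ ≤ |discreteGoodMass W (k n) - 1|}).toReal) atTop (𝓝 0)) :=
  Claimed.Agent.R133.top_result

end Claimed.Agent.S0266
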