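-- Statement S0268 (row 365, supporting; parent row 133): corollary of the landed S0266,
-- monotonicity of the worst-case distance and ergodicity of the Glauber dynamics.
import Claimed.Statements.S0268
import Claimed.Agent.S0266
import Claimed.Agent.Sup.S0268.Mix

set_option autoImplicit false
open Claims Claims.C0228 Claims.C0228.CriticalSK
open scoped BigOperators Topology NNReal ENNReal
open MeasureTheory ProbabilityTheory Filter
open Claims Claims.C0228 Claims.C0228.CriticalSK

namespace Claimed.Agent.S0268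

theorem isProb_disorderLaw (n : ℕ) : IsProbabilityMeasure (disorderLaw n) := by
  unfold disorderLaw
  infer_instance

/-- if the complement of a set of vanishing probability is contained in `A n`, then
the probability of `A n` tends to one (no measurability needed) -/
theorem prob_tendsto_one (A B : (n : ℕ) → Set (Disorder n))
    (hsub : ∀ᶠ n in atTop, (B n)ᶜ ⊆ A n)
    (hB : Tendsto (fun n => (disorderLaw n (B n)).toReal) atTop (𝓝 0)) :
    Tendsto (fun n => (disorderLaw n).real (A n)) atTop (𝓝 1) := by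
  have hlow : Tendsto (fun n => 1 - (disorderLaw n (B n)).toReal) atTop (𝓝 1) := by
    simpa using hB.const_sub 1
  refine tendsto_of_tendsto_of_tendsto_of_le_of_le' hlow tendsto_const_nhds ?_ ?_
  · filter_upwards [hsub] with n hn
    have := isProb_disorderLaw n
    have huniv : B n ∪ A n = Set.univ := by
      ext W
      simp only [Set.mem_union, Set.mem_univ, iff_true]
      by_cases hW : W ∈ B n
      · exact Or.inl hW
      · exact Or.inr (hn hW)
    have h1 : (disorderLaw n).real (B n ∪ A n) = 1 := by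
      rw [huniv]
      exact probReal_univ
    have h2 := measureReal_union_le (μ := disorderLaw n) (B n) (A n)
    have h3 : (disorderLaw n).real (B n) = (disorderLaw n (B n)).toReal := rfl
    linarith
  · filter_upwards with n
    have := isProb_disorderLaw n
    exact measureReal_le_one

theorem tendsto_natCast_rpow_neg (a : ℝ) (ha : 0 < a) :
    Tendsto (fun n : ℕ => (n : ℝ) ^ (-a)) atTop (𝓝 0) :=
  (tendsto_rpow_neg_atTop ha).comp tendsto_natCast_atTop_atTop

theorem result (ε : ℝ) (hε : 0 < ε) :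
    Tendsto (fun n => (disorderLaw n).real {W |
      (n : ℝ) ^ (2 / 3 - ε) ≤ continuousMixingTime W}) atTop (𝓝 1) ∧
    Tendsto (fun n => (disorderLaw n).real {W |
      (n : ℝ) ^ (5 / 3 - ε) ≤ (discreteMixingTime W : ℝ)}) atTop (𝓝 1) := by
  obtain ⟨hc, hd⟩ := Claimed.Agent.S0266.result
  constructor
  · have hlim : Tendsto (fun n : ℕ => (n : ℝ) ^ (2 / 3 - ε) / (n : ℝ) ^ ((2 : ℝ) / 3))
        atTop (𝓝 0) := by
      refine (tendsto_natCast_rpow_neg ε hε).congr' ?_
      filter_upwards [eventually_gt_atTop 0] with n hn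
      have hn' : (0 : ℝ) < n := by exact_mod_cast hn
      rw [← Real.rpow_sub hn']
      congr 1
      ring
    have hB := hc (fun n : ℕ => (n : ℝ) ^ (2 / 3 - ε))
      (fun n => Real.rpow_nonneg (Nat.cast_nonneg n) _) hlim (1 / 2) (by norm_num)
    refine prob_tendsto_one _ _ ?_ hB
    filter_upwards with n W hW
    simp only [Set.mem_compl_iff, Set.mem_ofPred_eq, not_le] at hW
    have hpos : 0 < continuousGoodMass W ((n : ℝ) ^ (2 / 3 - ε)) := by
      have := (abs_lt.1 hW).1
      linarith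
    obtain ⟨x, hx⟩ := exists_far_cont W _ hpos
    exact cont_lower W _ x hx
  · have hlim : Tendsto (fun n : ℕ => ((⌈(n : ℝ) ^ (5 / 3 - ε)⌉₊ : ℕ) : ℝ) / (n : ℝ) ^ ((5 : ℝ) / 3))
        atTop (𝓝 0) := by
      have hup : Tendsto (fun n : ℕ => (n : ℝ) ^ (-ε) + (n : ℝ) ^ (-((5 : ℝ) / 3))) atTop (𝓝 0) := by
        simpa using (tendsto_natCast_rpow_neg ε hε).add
          (tendsto_natCast_rpow_neg ((5 : ℝ) / 3) (by norm_num))
      refine tendsto_of_tendsto_of_tendsto_of_le_of_le' tendsto_const_nhds hup ?_ ?_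
      · filter_upwards with n
        positivity
      · filter_upwards [eventually_gt_atTop 0] with n hn
        have hn' : (0 : ℝ) < n := by exact_mod_cast hn
        have hp : 0 < (n : ℝ) ^ ((5 : ℝ) / 3) := Real.rpow_pos_of_pos hn' _
        have h1 : ((⌈(n : ℝ) ^ (5 / 3 - ε)⌉₊ : ℕ) : ℝ) ≤ (n : ℝ) ^ (5 / 3 - ε) + 1 :=
          (Nat.ceil_lt_add_one (Real.rpow_nonneg (Nat.cast_nonneg n) _)).le
        have e1 : (n : ℝ) ^ (-ε) = (n : ℝ) ^ (5 / 3 - ε) / (n : ℝ) ^ ((5 : ℝ) / 3) := by
          rw [← Real.rpow_sub hn']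
          congr 1
          ring
        have e2 : (n : ℝ) ^ (-((5 : ℝ) / 3)) = 1 / (n : ℝ) ^ ((5 : ℝ) / 3) := by
          rw [Real.rpow_neg hn'.le, one_div]
        rw [e1, e2, ← add_div]
        exact div_le_div_of_nonneg_right h1 hp.le
    have hB := hd (fun n : ℕ => ⌈(n : ℝ) ^ (5 / 3 - ε)⌉₊) hlim (1 / 2) (by norm_num)
    refine prob_tendsto_one _ _ ?_ hB
    filter_upwards [eventually_gt_atTop 0] with n hn W hW
    simp only [Set.mem_compl_iff, Set.mem_ofPred_eq, not_le] at hW
    have hpos : 0 < discreteGoodMass W ⌈(n : ℝ) ^ (5 / 3 - ε)⌉₊ := by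
      have := (abs_lt.1 hW).1
      linarith
    obtain ⟨x, hx⟩ := exists_far_disc W _ hpos
    have hlt := disc_lower hn W _ x hx
    have h1 : (n : ℝ) ^ (5 / 3 - ε) ≤ ((⌈(n : ℝ) ^ (5 / 3 - ε)⌉₊ : ℕ) : ℝ) := Nat.le_ceil _
    have h2 : ((⌈(n : ℝ) ^ (5 / 3 - ε)⌉₊ : ℕ) : ℝ) ≤ (discreteMixingTime W : ℝ) := by
      exact_mod_cast hlt.le
    exact h1.trans h2

end Claimed.Agent.S0268
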