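-- Statement S0273 (row 134).  Proof: multi-scale Kac potential + Ekeland variational principle,
-- see `Claimed/Agent/R134/`.
import Claimed.Statements.S0273
import Claimed.Agent.R134.Pk04

set_option autoImplicit false
open Claims Claims.C0233 Claims.C0233.ContinuumTemperature
open scoped Topology BigOperators ENNReal
open Filter MeasureTheory Set
open Claims Claims.C0233 Claims.C0233.ContinuumTemperature

namespace Claimed.Agent.S0273

theorem result : MainStatement := Claimed.Agent.R134.Main273.main273

end Claimed.Agent.S0273
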