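import Claimed.Statements.S0274
import Claimed.Agent.R134.Pk07

set_option autoImplicit false
open Claims Claims.C0234 Claims.C0234.RadialTransition
open scoped BigOperators NNReal ContDiff ENNReal
open Filter MeasureTheory Set
open Claims Claims.C0234 Claims.C0234.RadialTransition

namespace Claimed.Agent.S0274

theorem result :
    ∃ (p : ℝ) (φ : Potential) (B C η βc : ℝ) (f : ℝ → ℝ → ℝ),
      0 < p ∧ IsPackingDensity p ∧
      IsBoundedPotential φ ∧ Continuous φ ∧
      0 < B ∧ 0 < C ∧ StableWith φ B ∧ AlgebraicDecayWith φ C ∧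
      0 < η ∧ Ioo (5*p/3 - η) (5*p/3 + η) ⊆ Ioi 0 ∧
      βc ∈ Icc (7/8:ℝ) (9/8) ∧
      ∀ ρ ∈ Ioo (5*p/3 - η) (5*p/3 + η),
        IsCanonicalFreeEnergy φ ρ (fun β => f β ρ) ∧
        StrictTemperatureCorner (fun β => f β ρ) βc := by
  exact Claimed.Agent.R134.H794.main274

end Claimed.Agent.S0274
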