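-- Statement S0275 (row 366): special case rho = 5p/3 of S0274; the definitions of C0235 and C0234
-- are the same terms, so the proof is a transport by definitional unfolding.
import Claimed.Statements.S0275
import Claimed.Agent.S0274

set_option autoImplicit false
open Claims Claims.C0235 Claims.C0235.RadialTransition
open scoped BigOperators NNReal
open Filter MeasureTheory Set
open Claims Claims.C0235 Claims.C0235.RadialTransition

namespace Claimed.Agent.S0275

theorem result :
    ∃ (p : ℝ) (φ : Potential) (B C : ℝ) (f : ℝ → ℝ) (βc : ℝ),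
      0 < p ∧ IsPackingDensity p ∧
      IsBoundedPotential φ ∧ Continuous φ ∧
      0 < B ∧ 0 < C ∧ StableWith φ B ∧ AlgebraicDecayWith φ C ∧
      IsCanonicalFreeEnergy φ (5*p/3) f ∧
      βc ∈ Icc (7/8:ℝ) (9/8) ∧ StrictTemperatureCorner f βc := by
  obtain ⟨p, φ, B, C, η, βc, f, hp, hpd, hbd, hc, hB, hC, hst, hdec, hη, -, hβ, hall⟩ :=
    Claimed.Agent.S0274.result
  have hmem : 5*p/3 ∈ Ioo (5*p/3 - η) (5*p/3 + η) := ⟨by linarith, by linarith⟩
  obtain ⟨h1, h2⟩ := hall _ hmem
  exact ⟨p, φ, B, C, fun β => f β (5*p/3), βc, hp, hpd, hbd, hc, hB, hC, hst, hdec, h1, hβ, h2⟩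

end Claimed.Agent.S0275
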