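import Claimed.Statements.S0276
import Claimed.Agent.R135.Main
import Claimed.Agent.R135.Offspring
import Claimed.Agent.R135.Glue236
import Claimed.Agent.R135.AdvGlue236

set_option autoImplicit false
open Claims Claims.C0236 Claims.C0236.ThreeState
open Claims Claims.C0236 Claims.C0236.ThreeState

namespace Claimed.Agent.S0276

theorem result (b : ℕ) (hb : 2 ≤ b) (lam : ℝ) (h : Admissible lam)
    (hcrit : 1 < (b : ℝ) * lam ^ 2) : Reconstructs (regularAdvantage b lam h) := by
  have hmain := Claimed.Agent.R135.main_generic (Claimed.Agent.R135.isPotts236 lam h)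
    (Claimed.Agent.R135.pure_mean b) (Claimed.Agent.R135.pure_fact2 b) hcrit
    Observation (observedLaw (PMF.pure b) lam h)
    (Claimed.Agent.R135.isLevel236 (PMF.pure b) lam h)
  obtain ⟨L, hL, ht⟩ := hmain
  refine ⟨L, hL, ?_⟩
  have : regularAdvantage b lam h
      = fun n => Claimed.Agent.R135.adv (observedLaw (PMF.pure b) lam h n) := by
    funext n
    exact Claimed.Agent.R135.advantage236_eq_adv _
  rw [this]
  exact ht

end Claimed.Agent.S0276
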