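import Claimed.Statements.S0277
import Claimed.Agent.R135.Main
import Claimed.Agent.R135.Offspring
import Claimed.Agent.R135.Glue236
import Claimed.Agent.R135.AdvGlue236

set_option autoImplicit false
open Claims Claims.C0236 Claims.C0236.ThreeState
open Claims Claims.C0236 Claims.C0236.ThreeState

namespace Claimed.Agent.S0277

theorem result (d : ℝ) (hd : 1 < d) (lam : ℝ) (h : Admissible lam)
    (hcrit : 1 < d * lam ^ 2) : Reconstructs (poissonAdvantage d hd lam h) := by
  have hd0 : (0 : ℝ) ≤ d := le_trans (by norm_num) hd.le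
  have hoff : ∀ k : ℕ, ((poissonOffspring d hd0) k).toReal
      = Real.exp (-d) * d ^ k / (k.factorial : ℝ) := by
    intro k
    exact ENNReal.toReal_ofReal (by positivity)
  have h1 : HasSum (fun k : ℕ => ((poissonOffspring d hd0) k).toReal * (k : ℝ)) d := by
    simp only [hoff]
    exact Claimed.Agent.R135.poisson_mean d
  have h2 : HasSum (fun k : ℕ => ((poissonOffspring d hd0) k).toReal
      * ((k : ℝ) * ((k : ℝ) - 1))) (d ^ 2) := by
    simp only [hoff]
    exact Claimed.Agent.R135.poisson_fact2 d
  have hmain := Claimed.Agent.R135.main_generic (Claimed.Agent.R135.isPotts236 lam h)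
    h1 h2 hcrit Observation (observedLaw (poissonOffspring d hd0) lam h)
    (Claimed.Agent.R135.isLevel236 (poissonOffspring d hd0) lam h)
  obtain ⟨L, hL, ht⟩ := hmain
  refine ⟨L, hL, ?_⟩
  have : poissonAdvantage d hd lam h
      = fun n => Claimed.Agent.R135.adv (observedLaw (poissonOffspring d hd0) lam h n) := by
    funext n
    exact Claimed.Agent.R135.advantage236_eq_adv _
  rw [this]
  exact ht

end Claimed.Agent.S0277
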