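import Claimed.Statements.S0278
import Claimed.Agent.R135.Main
import Claimed.Agent.R135.Offspring
import Claimed.Agent.R135.Glue237
import Claimed.Agent.R135.AdvGlue237

set_option autoImplicit false
open Claims Claims.C0237 Claims.C0237.ThreeState Claims.C0237.ThreeState.TreeClauses Claims.C0237.ThreeState.TreeClauses.Tree
open scoped BigOperators ENNReal NNReal
open Filter
open scoped Topology
open Claims Claims.C0237 Claims.C0237.ThreeState Claims.C0237.ThreeState.TreeClauses Claims.C0237.ThreeState.TreeClauses.Tree

namespace Claimed.Agent.S0278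

theorem result (b : ℕ) (lam : ℝ) (hlam : Admissible lam)
    (hKS : 1 < (b:ℝ)*lam^2) : Reconstructs lam hlam (PMF.pure b) := by
  have hmain := Claimed.Agent.R135.main_generic (Claimed.Agent.R135.isPotts237 lam hlam)
    (Claimed.Agent.R135.pure_mean b) (Claimed.Agent.R135.pure_fact2 b) hKS
    Observation (observationLaw lam hlam (PMF.pure b))
    (Claimed.Agent.R135.isLevel237 (PMF.pure b) lam hlam)
  obtain ⟨L, hL, ht⟩ := hmain
  refine ⟨L, hL, ?_⟩
  have : advantage lam hlam (PMF.pure b)
      = fun n => Claimed.Agent.R135.adv (observationLaw lam hlam (PMF.pure b) n) := by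
    funext n
    exact Claimed.Agent.R135.advantage237_eq_adv _ _ _ _
  rw [this]
  exact ht

end Claimed.Agent.S0278
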