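import Claimed.Statements.S0279
import Claimed.Agent.R135.Main
import Claimed.Agent.R135.Offspring
import Claimed.Agent.R135.Glue237
import Claimed.Agent.R135.AdvGlue237

set_option autoImplicit false
open Claims Claims.C0237 Claims.C0237.ThreeState Claims.C0237.ThreeState.TreeClauses Claims.C0237.ThreeState.TreeClauses.Tree
open scoped BigOperators ENNReal NNReal
open Filter
open scoped Topology
open Claims Claims.C0237 Claims.C0237.ThreeState Claims.C0237.ThreeState.TreeClauses Claims.C0237.ThreeState.TreeClauses.Tree

namespace Claimed.Agent.S0279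

theorem result (d : ℝ≥0) (lam : ℝ) (hlam : Admissible lam)
    (hKS : 1 < (d:ℝ)*lam^2) : Reconstructs lam hlam (poissonPMF d) := by
  have hoff : ∀ k : ℕ, ((poissonPMF d) k).toReal
      = Real.exp (-(d : ℝ)) * (d : ℝ) ^ k / (k.factorial : ℝ) := by
    intro k
    exact ENNReal.toReal_ofReal (Probability.poissonWeight_nonneg d.coe_nonneg k)
  have h1 : HasSum (fun k : ℕ => ((poissonPMF d) k).toReal * (k : ℝ)) (d : ℝ) := by
    simp only [hoff]
    exact Claimed.Agent.R135.poisson_mean d
  have h2 : HasSum (fun k : ℕ => ((poissonPMF d) k).toReal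
      * ((k : ℝ) * ((k : ℝ) - 1))) ((d : ℝ) ^ 2) := by
    simp only [hoff]
    exact Claimed.Agent.R135.poisson_fact2 d
  have hmain := Claimed.Agent.R135.main_generic (Claimed.Agent.R135.isPotts237 lam hlam)
    h1 h2 hKS Observation (observationLaw lam hlam (poissonPMF d))
    (Claimed.Agent.R135.isLevel237 (poissonPMF d) lam hlam)
  obtain ⟨L, hL, ht⟩ := hmain
  refine ⟨L, hL, ?_⟩
  have : advantage lam hlam (poissonPMF d)
      = fun n => Claimed.Agent.R135.adv (observationLaw lam hlam (poissonPMF d) n) := by
    funext n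
    exact Claimed.Agent.R135.advantage237_eq_adv _ _ _ _
  rw [this]
  exact ht

end Claimed.Agent.S0279
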