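import Claimed.Statements.S0280
import Claimed.Agent.R136.Pk35

set_option autoImplicit false
open Claims Claims.C0238 Claims.C0238.SLEExactGauge
open Set Filter MeasureTheory
open scoped Topology ENNReal NNReal
universe z0
open Claims Claims.C0238 Claims.C0238.SLEExactGauge

namespace Claimed.Agent.S0280

theorem result : SourceLowerMainTarget :=
  Claimed.Agent.R136.final

end Claimed.Agent.S0280
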