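import Claimed.Statements.S0281
import Claimed.Agent.R137.Pk02

set_option autoImplicit false
open Claims Claims.C0239 Claims.C0239.Problem336
open MeasureTheory
open scoped BigOperators ENNReal Topology
open Claims Claims.C0239 Claims.C0239.Problem336

namespace Claimed.Agent.S0281

theorem result :
    ∃ Phi : FactorRule, RuleBorel Phi ∧ RuleEquivariant Phi ∧ ∀ G : GraphCode, WorksOnGraph Phi G := by
  exact Claimed.Agent.R137.Asm.main

end Claimed.Agent.S0281
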