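import Claimed.Statements.S0288
import Claimed.Agent.R138.Pk02

set_option autoImplicit false
open Claims Claims.C0241 Claims.C0241.FixedClauseThreshold
open Claims Claims.C0241 Claims.C0241.FixedClauseThreshold

namespace Claimed.Agent.S0288

theorem result (k : ℕ) (hk : 3 ≤ k) : HasLimitingThreshold k := by
  exact Claimed.Agent.R138.main_threshold k hk

end Claimed.Agent.S0288
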