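import Claimed.Statements.S0289
import Claimed.Agent.R138.Pk09
import Claimed.Agent.R138.Pk05
import Claimed.Agent.R138.Pk08

set_option autoImplicit false
open Claims Claims.C0242 Claims.C0242.FixedClauseThreshold Claims.C0242.FixedClauseThreshold.Computability
open Filter
open scoped Topology NNReal
open Claims Claims.C0242 Claims.C0242.FixedClauseThreshold Claims.C0242.FixedClauseThreshold.Computability

namespace Claimed.Agent.S0289

theorem result : MainStatement :=
  Claimed.Agent.R138.Comp.main_of_modules Claimed.Agent.R138.Soft.brg_theoremA
    Claimed.Agent.R138.Cert.certSound Claimed.Agent.R138.Cert.certComplete_final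
    Claimed.Agent.R138.Comp.certCheck

end Claimed.Agent.S0289
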