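import Claimed.Statements.S0291
import Claimed.Agent.R138.Pk07

set_option autoImplicit false
open Claims Claims.C0244 Claims.C0244.RandomKSAT
open MeasureTheory ProbabilityTheory
open Claims Claims.C0244 Claims.C0244.RandomKSAT

namespace Claimed.Agent.S0291

theorem result (k : ℕ) (hk : 3 ≤ k) :
    (∃ C : ℝ, 0 ≤ C ∧ ∀ n : ℕ, k ≤ n →
      variance (H : Stream n k → ℝ) (streamLaw n k) ≤ C * n * ell k n) ∧
    (∀ B : ℝ, 0 < B → ∃ C : ℝ, 0 ≤ C ∧ ∀ n : ℕ, k ≤ n →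
      variance (T B : Stream n k → ℝ) (streamLaw n k) ≤ C * n * ell k n) ∧
    (∃ c : ℝ, 0 < c ∧
      (∃ N : ℕ, ∀ n : ℕ, N ≤ n → k ≤ n →
        c * n ≤ variance (H : Stream n k → ℝ) (streamLaw n k)) ∧
      (∀ B : ℝ, U k < B → ∃ N : ℕ, ∀ n : ℕ, N ≤ n → k ≤ n →
        c * n ≤ variance (T B : Stream n k → ℝ) (streamLaw n k))) := by
  exact Claimed.Agent.R138.V291.variance_main_proof k hk

end Claimed.Agent.S0291
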