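-- Statement S0292 (row 139): the free Ising measure on the d-regular tree is a factor of i.i.d.
-- if and only if tanh(beta) <= 1/sqrt(d-1).
import Claimed.Statements.S0292
import Claimed.Agent.R139.Pk12

set_option autoImplicit false
open Claims Claims.C0245 Claims.C0245.Problem367
open MeasureTheory
open Claims Claims.C0245 Claims.C0245.Problem367

namespace Claimed.Agent.S0292

theorem result :
    ∀ (d : ℕ) (beta : ℝ), 3 ≤ d → 0 ≤ beta → (IsFactorOfIID d (Real.tanh beta) ↔ Real.tanh beta ≤ 1 / Real.sqrt ((d : ℝ) - 1)) := by
  exact Claimed.Agent.R139.main_of_constructionGoal Claimed.Agent.R139.Fin.constructionGoal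

end Claimed.Agent.S0292
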