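import Claimed.Statements.S0296
import Claimed.Agent.R141.Pk02
import Claimed.Agent.R141.Pk03
import Claimed.Agent.R141.Pk05

set_option autoImplicit false
open Claims Claims.C0249
open scoped BigOperators
open Claims Claims.C0249

namespace Claimed.Agent.S0296

theorem result :
    BinaryCoordinateSweeps.BinaryContractionTarget ∧
    (∀ d : ℕ, 0 < d → ∑ g : Equiv.Perm (BinaryCoordinateSweeps.Slot d),
      BinaryCoordinateSweeps.binaryLaw d g * BinaryCoordinateSweeps.realSign g = 0) ∧
    BinaryCoordinateSweeps.UniformSweepMixingTarget :=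
  ⟨Claimed.Agent.R141.goal1_of (by norm_num) (by norm_num) (by norm_num)
      Claimed.Agent.R141.costTail_holds,
    fun d hd => Claimed.Agent.R141.goal2 d hd,
    Claimed.Agent.R141.Mix.goal3_of_costTail (by norm_num) (by norm_num) (by norm_num)
      Claimed.Agent.R141.costTail_holds⟩

end Claimed.Agent.S0296
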