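-- Statement S0320 (row 152): the Boone-Higman conjecture... a finitely generated group has decidable word problem
-- iff it embeds in a finitely presented simple group.  Proof: modules A, B, C1, CT, CL, HW, MC, EV, IN under Claimed/Agent/R152/.
import Claimed.Statements.S0320
import Claimed.Agent.R152.EV.Export

set_option autoImplicit false
open Claims Claims.C0272 Claims.C0272.FiniteAlgebraicEnvelopes
universe u
open Claims Claims.C0272 Claims.C0272.FiniteAlgebraicEnvelopes

namespace Claimed.Agent.S0320

theorem result (GroupType : Type u) [Group GroupType] [Group.FG GroupType] :
    HasDecidableWordProblem GroupType ↔ EmbedsInFinitelyPresentedSimpleGroup GroupType := by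
  exact Claimed.Agent.R152.IN.main Claimed.Agent.R152.EV.exists_good GroupType

end Claimed.Agent.S0320
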