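import Claimed.Statements.S0326
import Claimed.Agent.R155.Pk12
import Claimed.Agent.R155.Pk14

set_option autoImplicit false
open Claims Claims.C0278 Claims.C0278.SimpleAmenable
open scoped symmDiff
open Claims Claims.C0278 Claims.C0278.SimpleAmenable

namespace Claimed.Agent.S0326

theorem result : ∃ (G : Type) (_ : Group G),
    Infinite G ∧ Group.IsFinitelyPresented G ∧ IsSimpleGroup G ∧ FolnerAmenable G :=
  ⟨Claimed.Agent.R155.GG 24, inferInstance, Claimed.Agent.R155.GG_infinite (by norm_num),
    Claimed.Agent.R155.GG_fp le_rfl, Claimed.Agent.R155.GG_simple (by norm_num),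
    Claimed.Agent.R155.GG_folner (by norm_num)⟩

end Claimed.Agent.S0326
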