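import Claimed.Statements.S0327
import Claimed.Agent.R156.ConfigG
import Claimed.Agent.R156.Final

set_option autoImplicit false
open Claims Claims.C0279 Claims.C0279.ArtinCAT0
universe z0 z1 z2
universe u
open Claims Claims.C0279 Claims.C0279.ArtinCAT0

namespace Claimed.Agent.S0327

theorem result :
    (∀ s t : Letters, explicitMatrix s t = explicitMatrix t s) ∧
    (∀ s : Letters, explicitMatrix s s = 1) ∧
    (∀ s t : Letters, s ≠ t →
      explicitMatrix s t = 2 ∨ explicitMatrix s t = 3 ∨ explicitMatrix s t = ⊤) ∧
    (∀ (X : Type u) [MetricSpace X] [ProperSpace X] [Nonempty X]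
      [MulAction (ArtinGroup explicitMatrix) X],
      ¬ GeometricAction (ArtinGroup explicitMatrix) X) := by
  exact ⟨Claimed.Agent.R156.matrix_symm, Claimed.Agent.R156.matrix_diag,
    Claimed.Agent.R156.matrix_labels,
    fun _ _ _ _ _ hGA => Claimed.Agent.R156.configG.false hGA⟩

end Claimed.Agent.S0327
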