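import Claimed.Statements.S0346
import Claimed.Agent.R165.Pk04

set_option autoImplicit false
open Claims Claims.C0293 Claims.C0293.LaughlinFock
open scoped BigOperators Matrix ComplexConjugate ComplexOrder
open Claims Claims.C0293 Claims.C0293.LaughlinFock

namespace Claimed.Agent.S0346

theorem result (γ : ℝ) (hγ : 0 < γ) (hγStar : γ < gammaStar) :
    ∃ Qγ : ℤ, 1 ≤ Qγ ∧ ∀ Q : ℤ, Qγ ≤ Q → FockInequality Q.toNat γ := by
  exact Claimed.Agent.R165.Ev.s0346_shape Claimed.Agent.R165.fock_main γ hγStar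

end Claimed.Agent.S0346
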