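import Claimed.Statements.S0347
import Claimed.Agent.S0346
import Claimed.Agent.R165.Pk04

set_option autoImplicit false
open Claims Claims.C0294 Claims.C0294.LaughlinGap
open Claims Claims.C0294 Claims.C0294.LaughlinGap

namespace Claimed.Agent.S0347

theorem result : MainTarget := by
  exact Claimed.Agent.R165.H967.main_of_fock (1/25) (by norm_num)
    (Claimed.Agent.S0346.result (1/25) (by norm_num)
      (by unfold Claims.C0293.LaughlinFock.gammaStar; norm_num))

end Claimed.Agent.S0347
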