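import Claimed.Statements.S0351
import Claimed.Agent.R167.Pk01

set_option autoImplicit false
open Claims Claims.C0298 Claims.C0298.DimensionTen
open scoped Matrix ComplexOrder
open Matrix Complex
open Claims Claims.C0298 Claims.C0298.DimensionTen

namespace Claimed.Agent.S0351

theorem result :
    ∃ Φ₁ Φ₂ : Mat 10 → Mat 10,
      Φ₁ = phiOne ∧ Φ₂ = phiTwo ∧ PPT Φ₁ ∧ PPT Φ₂ ∧
      (let Z := choi (Φ₂ ∘ Φ₁)
       Z ≠ 0 ∧
       (∀ u v : Fin 10 → ℂ, ∀ w : Fin 10 × Fin 10 → ℂ,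
         Z *ᵥ w = productVector u v → u = 0 ∨ v = 0) ∧
       ¬ EntanglementBreaking (Φ₂ ∘ Φ₁)) := by
  have hr : ∀ u v : Fin 10 → ℂ, ∀ w : Fin 10 × Fin 10 → ℂ,
      choi (phiTwo ∘ phiOne) *ᵥ w = productVector u v → u = 0 ∨ v = 0 := by
    intro u v w h
    exact Claimed.Agent.R167.CruxA.crux u v (Claimed.Agent.R167.Bridge.choi_range_form u v w h)
  exact ⟨phiOne, phiTwo, rfl, rfl, Claimed.Agent.R167.Kraus.ppt_phiOne,
    Claimed.Agent.R167.Kraus.ppt_phiTwo, Claimed.Agent.R167.Bridge.choi_ne_zero, hr,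
    Claimed.Agent.R167.Range.not_EB_of_range (by norm_num)
      Claimed.Agent.R167.Bridge.choi_ne_zero hr⟩

end Claimed.Agent.S0351
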