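import Claimed.Statements.S0350
import Claimed.Agent.S0351
import Claimed.Agent.R167.Pk02

set_option autoImplicit false
open Claims Claims.C0297 Claims.C0297.DimensionTen
open scoped BigOperators ComplexOrder Kronecker MatrixOrder
open Matrix
open Claims Claims.C0297 Claims.C0297.DimensionTen

namespace Claimed.Agent.S0350

theorem result :
    ∃ Θ : ChannelCompletion.Map (Fin 21) (Fin 21),
      ChannelCompletion.PPT Θ ∧ ChannelCompletion.TracePreserving Θ ∧
        ¬ ChannelCompletion.EntanglementBreaking (Θ.comp Θ) := by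
  obtain ⟨Φ₁, Φ₂, -, -, h₁, h₂, -, -, hne⟩ := Claimed.Agent.S0351.result
  exact Claimed.Agent.R167.H900.completion Φ₁ Φ₂ h₁ h₂ hne

end Claimed.Agent.S0350
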