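import Claimed.Statements.S0369
import Claimed.Agent.R179.Pk01
import Claimed.Agent.R179.Pk02

set_option autoImplicit false
open Claims Claims.C0313 Claims.C0313.BoundedRecovery
universe u
open Filter MeasureTheory Set
open scoped Topology ComplexConjugate
variable {H : Type u} [NormedAddCommGroup H] [InnerProductSpace ℂ H] [CompleteSpace H]
open Claims Claims.C0313 Claims.C0313.BoundedRecovery

namespace Claimed.Agent.S0369

theorem result (S : StandardModularData H) (hscalar : S.ScalarCentralizer)
    (omega : Ultrafilter ℕ) (hfree : (omega : Filter ℕ) ≤ Filter.atTop)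
    (T : H →L[ℂ] H) (s : ℝ) (delta : ℕ → ℝ) (hdelta : ∀ n, 0 < delta n)
    (hdelta0 : Tendsto delta atTop (𝓝 0)) (h : ℕ → H) (hunit : ∀ n, ‖h n‖ = 1)
    (hband : ∀ n, S.D.HasSpectralSupport (Icc (s - delta n) (s + delta n)) (h n))
    (hpositive : 0 < Filter.limsup
      (fun n => fixedMean omega (fun t => ‖T (S.D.unitary t (h n))‖ ^ 2)) atTop) :
    RecoveryConclusion S T s delta := by
  have hres : ∀ a' ∈ S.M.commutant, ∀ lam : ℝ, 0 < lam →
      ∃ a ∈ S.M, Claimed.Agent.R179.StarRel S a' a lam := by
    intro a' ha' lam hlam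
    obtain ⟨x, hx, -, hrel⟩ :=
      Claimed.Agent.R179.Resolvent.resolvent_lemma S.M S.xi S.separating a' ha' lam hlam
    exact ⟨x, hx, hrel⟩
  have hdense := Claimed.Agent.R179.Resolvent.dense_commutant_orbit S.M S.xi S.separating
  exact Claimed.Agent.R179.main_of_interface S (Claimed.Agent.R179.unitary_xi S)
    (Claimed.Agent.R179.dense_good S hres hdense)
    (fun y hy a b hs => Claimed.Agent.R179.norm_star_xi_le S hy (fun u hu => hu.2) hs)
    hscalar omega hfree T s delta hdelta hdelta0 h hunit hband hpositive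

end Claimed.Agent.S0369
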