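import Claimed.Statements.S0371
import Claimed.Agent.R181.Pk04
import Claimed.Agent.R181.Pk07

set_option autoImplicit false
open Claims Claims.C0315 Claims.C0315.NuclearUltrapower
open Claims Claims.C0315 Claims.C0315.NuclearUltrapower

namespace Claimed.Agent.S0371

theorem result : MainStatementWithCuntzCorollary.{0} :=
  Claimed.Agent.R181.Assembly.main_of_kazhdan Claimed.Agent.R181.SOSphi.exists_kazhdan

end Claimed.Agent.S0371
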