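import Claimed.Statements.S0372
import Claimed.Agent.R182.Pk02

set_option autoImplicit false
open Claims Claims.C0316 Claims.C0316.BackwardIntertwiners
open Filter Topology MeasureTheory Set
open scoped ENNReal
open Claims Claims.C0316 Claims.C0316.BackwardIntertwiners

namespace Claimed.Agent.S0372

theorem result (H : Type*) [NormedAddCommGroup H] [InnerProductSpace ℂ H]
    [CompleteSpace H] [TopologicalSpace.SeparableSpace H] (hInf : ¬FiniteDimensional ℂ H) :
    Hyperinvariant233.FullClaim (H:=H) :=
  Claimed.Agent.R182.main316 H hInf

end Claimed.Agent.S0372
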