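import Claimed.Statements.S0373
import Claimed.Agent.Sup.S0373.Transport

set_option autoImplicit false
open Claims Claims.C0317 Claims.C0317.ContinuousCircleWeight
open MeasureTheory
open scoped ENNReal ComplexInnerProductSpace
open Claims Claims.C0317 Claims.C0317.ContinuousCircleWeight

namespace Claimed.Agent.S0373

theorem result : MainStatement := by
  have h2 : (1 : ℝ) < Real.sqrt 2 := by
    rw [show (1 : ℝ) = Real.sqrt 1 from Real.sqrt_one.symm]
    exact Real.sqrt_lt_sqrt (by norm_num) (by norm_num)
  have h3 : Real.sqrt 2 < 2 := by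
    rw [Real.sqrt_lt' (by norm_num)]
    norm_num
  have hθ : Irrational (Real.sqrt 2 - 1) := by
    simpa using irrational_sqrt_two.sub_natCast 1
  obtain ⟨f, hf⟩ := Claimed.Agent.R182.Rot.main (Real.sqrt 2 - 1) (by linarith) (by linarith) hθ
  obtain ⟨hw, -, htriv, -, -, -⟩ := hf
  obtain ⟨-, h01, hzero, hlog⟩ := hw
  refine ⟨Real.sqrt 2 - 1, f, Ut _, Vt _, Wm _ Claimed.Agent.R182.Rot.vac, by linarith, by linarith,
    hθ, isTracialRotation _, h01, ⟨0, hzero⟩, ?_, ?_⟩
  · have e : ∀ x, negativeLog (f x) = Claims.C0320.Invariant233.negLogCost (f x) := by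
      intro x
      unfold negativeLog Claims.C0320.Invariant233.negLogCost
      rw [abs_of_nonneg (h01 x).1]
    simp_rw [e]
    exact hlog
  · intro p hp hproj hinv
    have hinv' : (1 - (Phi (Real.sqrt 2 - 1)).symm p) *
        Claims.C0320.Invariant233.Rotation.weightedReal (Real.sqrt 2 - 1) f *
          (Phi (Real.sqrt 2 - 1)).symm p = 0 := by
      have e1 : Phi (Real.sqrt 2 - 1) ((1 - (Phi (Real.sqrt 2 - 1)).symm p) *
          Claims.C0320.Invariant233.Rotation.weightedReal (Real.sqrt 2 - 1) f *
            (Phi (Real.sqrt 2 - 1)).symm p) = Phi (Real.sqrt 2 - 1) 0 := by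
        rw [map_mul, map_mul, map_sub, map_one, StarAlgEquiv.apply_symm_apply, map_zero,
          ← weightedRotation_eq]
        exact hinv
      exact (Phi (Real.sqrt 2 - 1)).injective e1
    rcases htriv _ (mem_algebra_of_mem _ p hp) (hproj.map (Phi (Real.sqrt 2 - 1)).symm) hinv'
      with h | h
    · left
      have := congrArg (Phi (Real.sqrt 2 - 1)) h
      rwa [StarAlgEquiv.apply_symm_apply, map_zero] at this
    · right
      have := congrArg (Phi (Real.sqrt 2 - 1)) h
      rwa [StarAlgEquiv.apply_symm_apply, map_one] at this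

end Claimed.Agent.S0373
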