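import Claimed.Statements.S0374
import Claimed.Agent.Sup.S0374.Center

set_option autoImplicit false
open Claims Claims.C0318 Claims.C0318.FiniteFactor
open Filter
open scoped Topology
universe u
variable {H : Type u} [NormedAddCommGroup H] [InnerProductSpace ℂ H] [CompleteSpace H]
open Claims Claims.C0318 Claims.C0318.FiniteFactor

namespace Claimed.Agent.S0374

open Claims.C0320.Invariant233 Claimed.Agent.R182.Rot Claimed.Agent.R182.Abs in
theorem separable_Hc : TopologicalSpace.SeparableSpace Hc := by
  have hF : TopologicalSpace.SeparableSpace Fib := by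
    have hb : HilbertBasis ℤ ℂ Fib := HilbertBasis.ofRepr (LinearIsometryEquiv.refl ℂ Fib)
    have hd := hb.dense_span
    have hsep : TopologicalSpace.IsSeparable (Set.range hb) := (Set.countable_range hb).isSeparable
    have h2 : TopologicalSpace.IsSeparable
        ((Submodule.span ℂ (Set.range hb) : Submodule ℂ Fib) : Set Fib) := hsep.span
    have h3 : TopologicalSpace.IsSeparable (Set.univ : Set Fib) := by
      have := h2.closure
      rw [← Submodule.topologicalClosure_coe, hd] at this
      simpa using this
    exact TopologicalSpace.isSeparable_univ_iff.mp h3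
  have : Fact ((2 : ENNReal) ≠ ⊤) := ⟨by norm_num⟩
  have h1 : MeasurableSpace.CountablyGenerated Circ := inferInstance
  have h2 : MeasureTheory.SFinite (circleMeasure : MeasureTheory.Measure Circ) := inferInstance
  have h3 : MeasureTheory.IsSeparable (circleMeasure : MeasureTheory.Measure Circ) :=
    @MeasureTheory.instIsSeparableOfCountablyGeneratedOfSFinite _ _ _ h1 h2
  have : SecondCountableTopology Hc := by
    unfold Hc HX
    exact MeasureTheory.Lp.SecondCountableTopology
  infer_instance

theorem result : MainTarget.{0} := by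
  have h2 : (1 : ℝ) < Real.sqrt 2 := by
    rw [show (1 : ℝ) = Real.sqrt 1 from Real.sqrt_one.symm]
    exact Real.sqrt_lt_sqrt (by norm_num) (by norm_num)
  have h3 : Real.sqrt 2 < 2 := by
    rw [Real.sqrt_lt' (by norm_num)]
    norm_num
  have hθ : Irrational (Real.sqrt 2 - 1) := by
    simpa using irrational_sqrt_two.sub_natCast 1
  obtain ⟨f, hf⟩ := Claimed.Agent.R182.Rot.main (Real.sqrt 2 - 1) (by linarith) (by linarith) hθ
  obtain ⟨-, hmem, htriv, hne, hq, -⟩ := hf
  have := separable_Hc
  refine ⟨Claimed.Agent.R182.Rot.Hc, inferInstance, inferInstance, inferInstance,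
    Claims.C0320.Invariant233.Rotation.algebra (Real.sqrt 2 - 1), ?_, ?_, ?_, ?_, ?_⟩
  · intro a ha hc
    exact scalar_center _ hθ a ha hc
  · intro v hv h
    exact finite_alg _ v hv h
  · intro p hp hp' h0
    exact no_minimal _ p hp hp' h0
  · exact exists_separable_predual _
  · exact ⟨_, hmem, hne, hq, htriv⟩

end Claimed.Agent.S0374
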