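import Claimed.Statements.S0375
import Claimed.Agent.R182.Pk02

set_option autoImplicit false
open Claims Claims.C0319 Claims.C0319.Hyperinvariant
open Filter
open scoped Topology
universe u
variable (H : Type u) [NormedAddCommGroup H] [InnerProductSpace ℂ H]
  [CompleteSpace H] [TopologicalSpace.SeparableSpace H]
open Claims Claims.C0319 Claims.C0319.Hyperinvariant

namespace Claimed.Agent.S0375

theorem result (hInf : ¬FiniteDimensional ℂ H) : FullClaim (H := H) :=
  Claimed.Agent.R182.main319 H hInf

end Claimed.Agent.S0375
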