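import Claimed.Statements.S0376
import Claimed.Agent.R182.Rot.Pk08

set_option autoImplicit false
open Claims Claims.C0320 Claims.C0320.Invariant233 Claims.C0320.Invariant233.Results
open Claims Claims.C0320 Claims.C0320.Invariant233 Claims.C0320.Invariant233.Results

namespace Claimed.Agent.S0376

theorem result (θ : ℝ)
    (hθ0 : 0 < θ) (hθ1 : θ < 1) (hθ : Irrational θ) :
    ∃ f : C(Claims.C0320.Invariant233.Circle, ℝ), Rotation.IsContinuousCounterexample θ f :=
  Claimed.Agent.R182.Rot.main θ hθ0 hθ1 hθ

end Claimed.Agent.S0376
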