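import Claimed.Statements.S0381
import Claimed.Agent.R184.Pk11

set_option autoImplicit false
open Claims Claims.C0324 Claims.C0324.BoundedHochschild Claims.C0324.BoundedHochschild.KadisonRingrose
universe u
open Claims Claims.C0324 Claims.C0324.BoundedHochschild Claims.C0324.BoundedHochschild.KadisonRingrose

namespace Claimed.Agent.S0381

theorem result
    {M : Type u} [CStarAlgebra M] [PartialOrder M] [StarOrderedRing M] [WStarAlgebra M]
    (n : ℕ) (f : Cochain M (n + 2))
    (hf : ∀ x : Fin (n + 3) → M, differentialValue f x = 0) :
    ∃ g : Cochain M (n + 1), ∀ x : Fin (n + 2) → M,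
      differentialValue g x = f x := by
  exact Claimed.Agent.R184.KR_of_WStar (n + 1) f hf

end Claimed.Agent.S0381
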