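import Claimed.Statements.S0382
import Claimed.Agent.R185.Pk05

set_option autoImplicit false
open Claims Claims.C0325 Claims.C0325.RelativeGeneration
universe z0
variable {Hilbert : Type z0} [NormedAddCommGroup Hilbert]
  [InnerProductSpace ℂ Hilbert] [CompleteSpace Hilbert]
open Claims Claims.C0325 Claims.C0325.RelativeGeneration

namespace Claimed.Agent.S0382

theorem result : MainTarget.{z0} :=
  Claimed.Agent.R185.main_target

end Claimed.Agent.S0382
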