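import Claimed.Statements.S0383
import Claimed.Agent.R186.Pk04

set_option autoImplicit false
open Claims Claims.C0326 Claims.C0326.NaimarkZFC
universe u v w
open Claims Claims.C0326 Claims.C0326.NaimarkZFC

namespace Claimed.Agent.S0383

theorem result :
    ∃ (A : Type u) (_ : CStarAlgebra A),
      IsSimpleCStar A ∧ ¬ FiniteDimensional ℂ A ∧
      (∃ τ : A →L[ℂ] ℂ, IsFaithfulTracialState τ) ∧
      HasUniqueIrreducibleRepresentation.{u, v, w} A ∧
      ∀ (H : Type v) [NormedAddCommGroup H] [InnerProductSpace ℂ H] [CompleteSpace H],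
        ¬ IsIsomorphicToCompacts A H :=
  Claimed.Agent.R186.main_S0383.{u, v, w}

end Claimed.Agent.S0383
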