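import Claimed.Statements.S0388
import Claimed.Agent.R189.Pk03

set_option autoImplicit false
open Claims Claims.C0330 Claims.C0330.Grothendieck
universe u v w
open CategoryTheory CategoryTheory.Limits Opposite
open CategoryTheory CategoryTheory.Limits
open Claims Claims.C0330 Claims.C0330.Grothendieck

namespace Claimed.Agent.S0388

theorem result (C : GlobularTheory.{v}) (hC : C.IsCoherator)
    (X : C.Model) (hX : X.IsCellular) (n : ℕ)
    (a : GlobularTheory.Model.disk C n ⟶ X)
    (Y : C.Model) (i : X ⟶ Y)
    (b : GlobularTheory.Model.disk C (n + 1) ⟶ Y)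
    (square : IsPushout a (GlobularTheory.Model.J C n) i b) :
    GlobularTheory.Model.WeakEquivalence hC i :=
  Claimed.Agent.R189.main hC X hX n a Y i b square

end Claimed.Agent.S0388
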