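import Claimed.Statements.S0389
import Claimed.Agent.R190.Pk11

set_option autoImplicit false
open Claims Claims.C0331
universe u v w
open Claims Claims.C0331 Claims.C0331.Thomason

namespace Claimed.Agent.S0389

theorem result : Claims.C0331.Thomason.FullMain.{u} := by
  exact Claimed.Agent.R190.fullMain

end Claimed.Agent.S0389
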