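import Claimed.Statements.S0390
import Claimed.Agent.R190.Pk04

set_option autoImplicit false
open Claims Claims.C0331
universe u v w
open Claims Claims.C0331 Claims.C0331.Thomason

namespace Claimed.Agent.S0390

theorem result :
    Claims.C0331.Thomason.thomasonWeakEquivalences.{u} =
      Claims.C0331.Thomason.simplicialWeakEquivalences.inverseImage Claims.C0331.Thomason.streetNerveFunctor ∧
    ∀ n : ℕ, Claims.C0331.Thomason.thomasonWeakEquivalencesFinite.{u} n =
      Claims.C0331.Thomason.simplicialWeakEquivalences.inverseImage (Claims.C0331.Thomason.streetNerveFinite n) := by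
  refine ⟨?_, fun n => ?_⟩
  · ext C D f
    exact Claimed.Agent.R190.F.W_ex2_map_iff (Claims.C0331.Thomason.streetNerveFunctor.map f)
  · ext C D f
    exact Claimed.Agent.R190.F.W_ex2_map_iff ((Claims.C0331.Thomason.streetNerveFinite n).map f)

end Claimed.Agent.S0390
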