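import Claimed.Statements.S0398

set_option autoImplicit false
open Claims Claims.C0338 Claims.C0338.DirectCrouzeix
open scoped Matrix Matrix.Norms.L2Operator Kronecker
open Claims Claims.C0338 Claims.C0338.DirectCrouzeix

namespace Claimed.Agent.S0398

noncomputable def A0 : Matrix (Fin 2) (Fin 2) ℂ := !![0, 2; 0, 0]

noncomputable def B0 : Fin (1 + 1) → Matrix (Fin 1) (Fin 1) ℂ := ![0, 1]

lemma polyval (z : ℂ) : polynomialValue B0 z = z • (1 : Matrix (Fin 1) (Fin 1) ℂ) := by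
  simp [polynomialValue, B0, Fin.sum_univ_two]

lemma tensor_eq : tensorEvaluation A0 B0 = A0 ⊗ₖ (1 : Matrix (Fin 1) (Fin 1) ℂ) := by
  simp [tensorEvaluation, B0, Fin.sum_univ_two]

lemma range_le (z : ℂ) (hz : z ∈ numericalRange A0) : ‖z‖ ≤ 1 := by
  obtain ⟨u, hu, rfl⟩ := hz
  have h1 : ‖u‖ ^ 2 = ‖u 0‖ ^ 2 + ‖u 1‖ ^ 2 := by
    rw [EuclideanSpace.norm_sq_eq]
    simp [Fin.sum_univ_two]
  rw [hu] at h1
  have h2 : inner ℂ u (Matrix.toEuclideanCLM (n := Fin 2) (𝕜 := ℂ) A0 u)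
      = 2 * u 1 * (starRingEnd ℂ) (u 0) := by
    rw [PiLp.inner_apply]
    simp [Fin.sum_univ_two, A0, Matrix.mulVec, dotProduct, Matrix.ofLp_toEuclideanCLM]
  rw [h2]
  simp only [norm_mul, RCLike.norm_conj]
  have : ‖(2 : ℂ)‖ = 2 := by simp
  rw [this]
  nlinarith [sq_nonneg (‖u 0‖ - ‖u 1‖)]

lemma rangeMax_le : rangeMaximum A0 B0 ≤ 1 := by
  unfold rangeMaximum
  apply Real.sSup_le
  · rintro _ ⟨z, hz, rfl⟩
    simp only [polyval, norm_smul]
    have : ‖(1 : Matrix (Fin 1) (Fin 1) ℂ)‖ = 1 := norm_one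
    rw [this, mul_one]
    exact range_le z hz
  · norm_num

lemma rangeMax_nonneg : 0 ≤ rangeMaximum A0 B0 := by
  unfold rangeMaximum
  apply Real.sSup_nonneg
  rintro _ ⟨z, _, rfl⟩
  exact norm_nonneg _

lemma two_le_norm : 2 ≤ ‖tensorEvaluation A0 B0‖ := by
  rw [tensor_eq]
  have h := Matrix.l2_opNorm_mulVec (A0 ⊗ₖ (1 : Matrix (Fin 1) (Fin 1) ℂ))
    (EuclideanSpace.single ((1 : Fin 2), (0 : Fin 1)) (1 : ℂ))
  have h3 : (A0 ⊗ₖ (1 : Matrix (Fin 1) (Fin 1) ℂ)) *ᵥ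
      (EuclideanSpace.single ((1 : Fin 2), (0 : Fin 1)) (1 : ℂ)).ofLp
      = (EuclideanSpace.single ((0 : Fin 2), (0 : Fin 1)) (2 : ℂ)).ofLp := by
    ext ⟨i, j⟩
    fin_cases i <;> fin_cases j <;>
      simp [Matrix.mulVec, dotProduct, A0, Matrix.kroneckerMap_apply]
  rw [h3] at h
  simpa using h

theorem result (c : ℝ) (hc : UniversalBound c) : 2 ≤ c := by
  have h := hc 2 1 1 (by norm_num) (by norm_num) A0 B0
  have h1 := rangeMax_le
  have h2 := rangeMax_nonneg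
  have h3 := two_le_norm
  rcases le_or_gt c 0 with hc0 | hc0
  · have : c * rangeMaximum A0 B0 ≤ 0 := mul_nonpos_of_nonpos_of_nonneg hc0 h2
    linarith
  · have : c * rangeMaximum A0 B0 ≤ c * 1 := mul_le_mul_of_nonneg_left h1 hc0.le
    linarith

end Claimed.Agent.S0398
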