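import Claimed.Statements.S0395
import Claimed.Agent.R194.Pk01
import Claimed.Agent.R194.Pk02
import Claimed.Agent.S0398

set_option autoImplicit false
open Claims Claims.C0336 Claims.C0336.CompleteCrouzeix
open scoped BigOperators Matrix.Norms.L2Operator ComplexOrder
open Claims Claims.C0336 Claims.C0336.CompleteCrouzeix

namespace Claimed.Agent.S0395

theorem result : UniversalBound 2 ∧ ∀ C : ℝ, UniversalBound C → 2 ≤ C := by
  refine ⟨?_, fun C hC => ?_⟩
  · intro n m d hn hm A B
    have : Nonempty (Fin n) := ⟨⟨0, hn⟩⟩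
    have : Nonempty (Fin m) := ⟨⟨0, hm⟩⟩
    exact Claimed.Agent.R194.crouzeix_matrix_of A B
      (fun N ρ hN hE c hc => Claimed.Agent.R194.bound_of_param' hN hE B hc)
  · exact Claimed.Agent.S0398.result C (fun n m d hn hm A B => hC n m d hn hm A B)

end Claimed.Agent.S0395
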