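import Claimed.Statements.S0397
import Claimed.Agent.R194.Pk01
import Claimed.Agent.R194.Pk02

set_option autoImplicit false
open Claims Claims.C0338 Claims.C0338.DirectCrouzeix
open scoped Matrix Matrix.Norms.L2Operator Kronecker
open Claims Claims.C0338 Claims.C0338.DirectCrouzeix

namespace Claimed.Agent.S0397

theorem result : UniversalBound 2 := by
  intro n m d hn hm A B
  have : Nonempty (Fin n) := ⟨⟨0, hn⟩⟩
  have : Nonempty (Fin m) := ⟨⟨0, hm⟩⟩
  exact Claimed.Agent.R194.crouzeix_matrix_of A B
    (fun N ρ hN hE c hc => Claimed.Agent.R194.bound_of_param' hN hE B hc)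

end Claimed.Agent.S0397
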