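import Claimed.Statements.S0396
import Claimed.Agent.S0397
import Claimed.Agent.R194.Pk04

set_option autoImplicit false
open Claims Claims.C0337 Claims.C0337.CrouzeixHilbert
open scoped TensorProduct Matrix.Norms.L2Operator InnerProductSpace
open Set
universe u
open Claims Claims.C0337 Claims.C0337.CrouzeixHilbert

namespace Claimed.Agent.S0396

theorem result (H : Type u) [NormedAddCommGroup H] [InnerProductSpace ℂ H]
    [CompleteSpace H] (A : Operator H) :
    (Nontrivial H → NonzeroConclusion A) ∧
    (Subsingleton H → ZeroConclusion A) ∧ SharpConstant :=
  Claimed.Agent.R194.Hilb.main Claimed.Agent.S0397.result A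

end Claimed.Agent.S0396
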