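-- Statement S0401 (row 196): nontrivial Markov type <-> equivalent uniformly convex norm.
-- Proof: blueprint docs/R196_proof.md (branch helper196); modules under Claimed/Agent/R196/.
--   (=>)  `core` (M2 Ramsey/minimax spreading, M3 untwisting, M4 limit object, M5 ping-pong contradiction)
--         + `uc_of_core` (trees, James seminorms, renorming);
--   (<=)  `m8_markovType_of_uc`.
import Claimed.Statements.S0401
import Claimed.Agent.R196.Pk02
import Claimed.Agent.R196.Pk03

set_option autoImplicit false
open Claims Claims.C0341 Claims.C0341.MarkovSuperreflexivity
open scoped BigOperators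
variable {X : Type*} [NormedAddCommGroup X] [NormedSpace ℝ X]
open Claims Claims.C0341 Claims.C0341.MarkovSuperreflexivity

namespace Claimed.Agent.S0401

theorem result [CompleteSpace X] :
    HasNontrivialMarkovType X ↔ HasEquivalentUCNorm X := by
  constructor
  · rintro ⟨p, hp, K, h⟩
    exact Claimed.Agent.R196.uc_of_core hp h (Claimed.Agent.R196.core hp h.2.1)
  · exact Claimed.Agent.R196.m8_markovType_of_uc

end Claimed.Agent.S0401
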