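import Claimed.Statements.S0402
import Claimed.Agent.R197.Pk01
import Claimed.Agent.R197.Pk02

set_option autoImplicit false
open Claims Claims.C0342 Claims.C0342.ReflexiveFixedPoints
universe u
variable (X : Type u) [NormedAddCommGroup X] [NormedSpace ℝ X]
variable {X}
open Claims Claims.C0342 Claims.C0342.ReflexiveFixedPoints

namespace Claimed.Agent.S0402

theorem result
    {X : Type u} [NormedAddCommGroup X] [NormedSpace ℝ X] [CompleteSpace X]
    (hX : CanonicallyReflexive X) (C : Set X)
    (hne : C.Nonempty) (hclosed : IsClosed C)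
    (hbounded : Bornology.IsBounded C) (hconvex : Convex ℝ C)
    (F : C → C)
    (hF : ∀ a b : C, ‖(F a : X) - (F b : X)‖ ≤ ‖(a : X) - (b : X)‖) :
    ∃ a : C, F a = a := by
  exact Claimed.Agent.R197.exists_fixed_of_core hX
    (fun _ _ hK hd => Claimed.Agent.R197.core hX hK hd) C hne hclosed hbounded hconvex F hF

end Claimed.Agent.S0402
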