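import Claimed.Statements.S0419
import Claimed.Agent.R202.Pk03
import Claimed.Agent.R202.Pk04
import Claimed.Agent.R202.Pk05

set_option autoImplicit false
open Claims Claims.C0354 Claims.C0354.SmoothLocal Claims.C0354.SmoothLocal.Geometry
open Set TopologicalSpace
open scoped ContDiff Topology Manifold Matrix
open Claims Claims.C0354 Claims.C0354.SmoothLocal Claims.C0354.SmoothLocal.Geometry

namespace Claimed.Agent.S0419

theorem result :
    ∃ g : coordinateSquareOpen → Matrix (Fin 2) (Fin 2) ℝ,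
      LocalSmoothPositive coordinateSquareOpen g ∧
      ∀ U : Opens Coord, ∀ hUS : (U : Set Coord) ⊆ square,
        (0 : Coord) ∈ U → ∀ F : U → Ambient,
          ¬ (ContMDiff 𝓘(ℝ, Coord) 𝓘(ℝ, Ambient) ∞ F ∧
            ∀ p : U, ∀ v w : Coord,
              (inner ℝ : Ambient → Ambient → ℝ) (mfderiv 𝓘(ℝ, Coord) 𝓘(ℝ, Ambient) F p v)
                (mfderiv 𝓘(ℝ, Coord) 𝓘(ℝ, Ambient) F p w) =
                  v ⬝ᵥ (g ⟨p, hUS p.property⟩ *ᵥ w)) := by
  exact Claimed.Agent.R202.S0419_of_TheoremP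
    (Claimed.Agent.R202.theoremP_of (fun p => Claimed.Agent.R202.pk_main p)
      Claimed.Agent.R202.pos_exists_par)

end Claimed.Agent.S0419
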