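import Claimed.Statements.S0425
import Claimed.Agent.R206.Pk02

set_option autoImplicit false
open Claims Claims.C0360 Claims.C0360.ArnoldCounterexample
open scoped BigOperators ContDiff
open Claims Claims.C0360 Claims.C0360.ArnoldCounterexample

namespace Claimed.Agent.S0425

theorem result :
    ∃ φ : Q3 ≃ Q3, IsHamiltonian φ ∧ (fixedSet φ).encard = 3 ∧
      (3 : ℕ∞) < 4 ∧ 4 ≤ criticalNumber ∧ HasDegenerateFixedPoint φ :=
  Claimed.Agent.R206.main_assembled

end Claimed.Agent.S0425
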