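import Claimed.Statements.S0430
import Claimed.Agent.R208.Pk09

set_option autoImplicit false
open Claims Claims.C0364 Claims.C0364.AffineBernstein
open Set MeasureTheory
open scoped BigOperators ContDiff ENNReal
open Claims Claims.C0364 Claims.C0364.AffineBernstein

namespace Claimed.Agent.S0430

theorem result
    (n : ℕ) (hn₃ : 3 ≤ n) (hn₉ : n ≤ 9)
    (Ω : Set (Space n)) (hΩne : Ω.Nonempty) (hΩopen : IsOpen Ω)
    (hΩconvex : Convex ℝ Ω) (u : Space n → ℝ)
    (hu : ContDiffOn ℝ ∞ u Ω)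
    (hpos : ∀ x ∈ Ω, (hessian u x).PosDef)
    (hmax : AffineMaximalOn Ω u)
    (hcomplete : EuclideanGraphComplete Ω u) :
    Ω = univ ∧
      (∃ (A : Matrix (Fin n) (Fin n) ℝ) (b : Space n) (c : ℝ),
        A.IsSymm ∧ A.PosDef ∧
        ∀ x, u x = (1 / 2 : ℝ) * (∑ i : Fin n, ∑ j : Fin n, x i * A i j * x j)
          + (∑ i : Fin n, b i * x i) + c) ∧
      (∃ e : (Space n × ℝ) ≃ᵃ[ℝ] (Space n × ℝ),
        e '' standardParaboloid n = graph Ω u) :=
  Claimed.Agent.R208.main n hn₃ hn₉ Ω hΩne hΩopen hΩconvex u hu hpos hmax hcomplete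

end Claimed.Agent.S0430
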