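import Claimed.Statements.S0431
import Claimed.Agent.R209.Pk14

set_option autoImplicit false
open Claims Claims.C0365 Claims.C0365.CubicTorus
open MeasureTheory Set
open scoped ENNReal
open Claims Claims.C0365 Claims.C0365.CubicTorus

namespace Claimed.Agent.S0431

theorem result (V : ℝ) (hV : V ∈ Ioo 0 1) :
    (∃ E : Set Torus, IsMinimizerAt V E) ∧
    (∀ E : Set Torus, IsMinimizerAt V E →
      perimeter E = ENNReal.ofReal (candidateProfile V)) ∧
    (∀ E : Set Torus, IsMinimizerAt V E ↔ StandardRegionAt V E) :=
  Claimed.Agent.R209.main_result V hV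

end Claimed.Agent.S0431
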