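import Claimed.Statements.S0432
import Claimed.Agent.R210.P3.Top

set_option autoImplicit false
open Claims Claims.C0366 Claims.C0366.WeakHessian
open Set Filter MeasureTheory
open scoped ENNReal NNReal Topology
attribute [local instance] Classical.propDecidable
variable {X : Type*} [MetricSpace X]
variable [MeasurableSpace X] [BorelSpace X]
open Claims Claims.C0366 Claims.C0366.WeakHessian

namespace Claimed.Agent.S0432

theorem result [CompleteSpace X] [TopologicalSpace.SeparableSpace X]
    (m : Measure X) (K N : ℝ) (hN : 1 < N)
    (hfull : FullSupport m) (hfinite : FiniteOnBoundedSets m) (hrcd : RCD m K N)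
    (F G : X → ℝ) (hFbound : BoundedFunction F) (hFlip : GloballyLipschitz F)
    (hGbound : BoundedFunction G) (hGcont : Continuous G)
    (hHess : WeakHessianUpperBound m F G)
    (σ : Curve X) (hσ : IsGeodesic σ) : CurveSecondDerivativeBound F G σ :=
  Claimed.Agent.R210.P3.Top.p3_top m K N hN hfull hfinite hrcd F G hFbound hFlip hGbound hGcont hHess σ hσ

end Claimed.Agent.S0432
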