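import Claimed.Statements.S0433
import Claimed.Agent.R211.Pk05

set_option autoImplicit false
open Claims Claims.C0367 Claims.C0367.ThreeManifold
open Set Manifold Bundle
open scoped ContDiff
variable {M : Type} [TopologicalSpace M] [ChartedSpace E3 M]
variable [IsManifold I3 ∞ M]
open Claims Claims.C0367 Claims.C0367.ThreeManifold

namespace Claimed.Agent.S0433

theorem result : MainStatement :=
  Claimed.Agent.R211.main

end Claimed.Agent.S0433
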