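import Claimed.Statements.S0434
import Claimed.Agent.R212.Pk06

set_option autoImplicit false
open Claims Claims.C0368 Claims.C0368.PinchedHartogs
open Set Filter Topology
open scoped ContDiff
open scoped Matrix.Norms.Elementwise
open Claims Claims.C0368 Claims.C0368.PinchedHartogs

namespace Claimed.Agent.S0434

theorem result : MainTheorem := by
  exact Claimed.Agent.R212.main

end Claimed.Agent.S0434
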