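-- Statement S0438 (row 213): Villani's conjecture, weak MTW implies convexity of all
-- injectivity domains.  Proof: continuity method in the scaling `s` of a two-mountain potential
-- (SOFT layer, `R213/Soft*.lean`), on top of a development of the geodesic flow
-- (`R213/Geo`, `R213/Flow`, `R213/ODE`) and of the branches of the cost (`R213/Mid`).
import Claimed.Statements.S0438
import Claimed.Agent.R213.SoftAll
import Claimed.Agent.R213.Geo.Final
import Claimed.Agent.R213.Mid.Main
import Claimed.Agent.R213.Mid.Jacobi
import Claimed.Agent.R213.Mid.Focal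

set_option autoImplicit false
open Claims Claims.C0370 Claims.C0370.WeakMTWGlobalSupport
open scoped Manifold ContDiff Topology
open Set Filter Manifold Bundle
open Claims Claims.C0370 Claims.C0370.WeakMTWGlobalSupport

namespace Claimed.Agent.S0438

theorem result
    {n : ℕ} (hn : 2 ≤ n) {M : Type*}
    [MetricSpace M] [ChartedSpace (WeakMTW.Model n) M]
    [IsManifold (WeakMTW.model n) ∞ M]
    [CompactSpace M] [ConnectedSpace M]
    [RiemannianBundle (fun x : M => TangentSpace (WeakMTW.model n) x)]
    [IsContMDiffRiemannianBundle (WeakMTW.model n) ∞ (WeakMTW.Model n)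
      (fun x : M => TangentSpace (WeakMTW.model n) x)]
    [IsRiemannianManifold (WeakMTW.model n) M]
    (hmtw : WeakMTW.HasWeakMTW (n := n) (M := M)) :
    WeakMTW.MainConvexity (n := n) (M := M) := by
  have hG : Claimed.Agent.R213.Mid.Geom n M := Claimed.Agent.R213.Geo.geom
  have hnf := Claimed.Agent.R213.Mid.nf_of_mem hG
  exact Claimed.Agent.R213.mainConvexity_of_core
    (Claimed.Agent.R213.Mid.softCore hG hmtw hnf (Claimed.Agent.R213.Mid.focal hG hnf hmtw))

end Claimed.Agent.S0438
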