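import Claimed.Statements.S0443
import Claimed.Agent.R218.Pk01
import Claimed.Agent.R218.Pk02

set_option autoImplicit false
open Claims Claims.C0375 Claims.C0375.Bernoulli
open MeasureTheory Set Filter
open scoped ENNReal Topology ContDiff
open scoped _root_.Bernoulli
open Claims Claims.C0375 Claims.C0375.Bernoulli

namespace Claimed.Agent.S0443

theorem result : ∃ u : Space 7 → ℝ,
    GlobalMinimizer u ∧ Nonzero u ∧ OneHomogeneous u ∧ ¬ Flat u := by
  obtain ⟨K, hK⟩ := Claimed.Agent.R218.U_lipschitz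
  exact ⟨Claimed.Agent.R218.U,
    Claimed.Agent.R218.Reduce.T0 Claimed.Agent.R218.U hK Claimed.Agent.R218.U_nonneg
      (fun c r _ v hv hv0 hS => Claimed.Agent.R218.hmin c r v hv hv0 hS),
    Claimed.Agent.R218.U_nonzero, Claimed.Agent.R218.U_oneHomogeneous,
    Claimed.Agent.R218.U_not_flat⟩

end Claimed.Agent.S0443
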