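import Claimed.Statements.S0444
import Claimed.Agent.R219.Pk25

set_option autoImplicit false
open Claims Claims.C0376 Claims.C0376.StrictHotSpots
open Set MeasureTheory
open scoped ContDiff
open Claims Claims.C0376 Claims.C0376.StrictHotSpots

namespace Claimed.Agent.S0444

theorem result (Ω : Set Claims.C0376.StrictHotSpots.Plane) (hΩ : AdmissibleDomain Ω)
    (u : Claims.C0376.StrictHotSpots.Plane → ℝ) (hu : InFirstNeumannEigenspace Ω u)
    (hne : ∃ x ∈ Ω, u x ≠ 0) : MainConclusion Ω u :=
  Claimed.Agent.R219.Top.main_assembly Ω hΩ u hu hne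

end Claimed.Agent.S0444
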