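import Claimed.Statements.S0445
import Claimed.Agent.R220.Pk06

set_option autoImplicit false
open Claims Claims.C0377 Claims.C0377.HenonLaneEmden
open Claims Claims.C0377 Claims.C0377.HenonLaneEmden

namespace Claimed.Agent.S0445

theorem result (n : ℕ) (hn : 2 ≤ n) (p q A B : ℝ)
    (hp : 0 < p) (hq : 0 < q) (hsub : Subcritical n p q A B) :
    ¬ ∃ u v : Space n → ℝ, IsSolution n p q A B u v :=
  Claimed.Agent.R220.nonexistence hn hp hq hsub

end Claimed.Agent.S0445
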