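import Claimed.Statements.S0446
import Claimed.Agent.R221.Pk09

set_option autoImplicit false
open Claims Claims.C0378 Claims.C0378.Elasticity
open MeasureTheory Set
open scoped BigOperators
open Claims Claims.C0378 Claims.C0378.Elasticity

namespace Claimed.Agent.S0446

theorem result : MainClaim := by
  exact Claimed.Agent.R221.main

end Claimed.Agent.S0446
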