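import Claimed.Statements.S0447
import Claimed.Agent.R222.Pk02

set_option autoImplicit false
open Claims Claims.C0379 Claims.C0379.Problem356
open MeasureTheory
open scoped ENNReal
open Claims Claims.C0379 Claims.C0379.Problem356

namespace Claimed.Agent.S0447

theorem result :
    ∃ rho : E3 → ℝ, HasFullCoulombConclusion rho := by
  exact Claimed.Agent.R222.Z222.main

end Claimed.Agent.S0447
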