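import Claimed.Statements.S0448
import Claimed.Agent.R223.Pk02

set_option autoImplicit false
open Claims Claims.C0380 Claims.C0380.Problem358
open MeasureTheory
open scoped BigOperators ENNReal
open Claims Claims.C0380 Claims.C0380.Problem358

namespace Claimed.Agent.S0448

theorem result :
    ∀ (dimension : ℕ) (source container : Set (E dimension)),
      2 ≤ dimension → IsCompact source → Convex ℝ source → (interior source).Nonempty →
      IsCompact container → container.Nonempty →
      ∃ constant : ℝ, 0 ≤ constant ∧
        ∀ (first second : Measure (E dimension)),
          IsProbabilityMeasure first → IsProbabilityMeasure second →
          IsSupported first container → IsSupported second container →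
          ∃ firstMap secondMap : E dimension → E dimension,
            IsUniqueQuadraticOptimalMap (uniformMeasure source) first firstMap ∧
            IsUniqueQuadraticOptimalMap (uniformMeasure source) second secondMap ∧
            mapL2Dist (uniformMeasure source) firstMap secondMap ≤
              constant * Real.rpow (wasserstein2 first second) (1 / 3 : ℝ) := by
  intro dimension source container _ hX hXc hXi hY hYn
  exact Claimed.Agent.R223.Stab.one_third_stability_aux source container hX hXc hXi hY hYn

end Claimed.Agent.S0448
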