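import Claimed.Statements.S0449
import Claimed.Agent.R223.Pk03

set_option autoImplicit false
open Claims Claims.C0380 Claims.C0380.Problem358
open MeasureTheory
open scoped BigOperators ENNReal
open Claims Claims.C0380 Claims.C0380.Problem358

namespace Claimed.Agent.S0449

theorem result :
    ∀ (dimension : ℕ), 2 ≤ dimension → ∀ exponent : ℝ, (1 / 3 : ℝ) < exponent →
      ∀ constant : ℝ, 0 < constant →
        ∃ (first second : Measure (E dimension)) (firstMap secondMap : E dimension → E dimension),
          IsProbabilityMeasure first ∧ IsProbabilityMeasure second ∧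
          IsSupported first (cube dimension) ∧ IsSupported second (cube dimension) ∧
          HasExactlyThreeAtoms first (cube dimension) ∧
          HasExactlyThreeAtoms second (cube dimension) ∧
          first ≠ second ∧
          IsUniqueQuadraticOptimalMap (uniformMeasure (cube dimension)) first firstMap ∧
          IsUniqueQuadraticOptimalMap (uniformMeasure (cube dimension)) second secondMap ∧
          0 < wasserstein2 first second ∧
          constant * Real.rpow (wasserstein2 first second) exponent <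
            mapL2Dist (uniformMeasure (cube dimension)) firstMap secondMap := by
  intro dimension hd exponent hexp constant hconst
  obtain ⟨i0, i1, h01⟩ : ∃ i0 i1 : Fin dimension, i0 ≠ i1 :=
    ⟨⟨0, by omega⟩, ⟨1, by omega⟩, by simp [Fin.ext_iff]⟩
  obtain ⟨t, ht0, ht1, hineq⟩ := R223.exists_small_t exponent hexp constant hconst
  have hε0 : 0 < t ^ 2 := by positivity
  have hε : t ^ 2 ≤ 1 / 4 := by nlinarith
  obtain ⟨hw0, hw1⟩ := R223.wass_bounds i0 i1 h01 (t ^ 2) hε0 hε
  refine ⟨R223.target i0 i1 (-1) (t ^ 2), R223.target i0 i1 1 (t ^ 2),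
    R223.T i0 i1 (-1) (t ^ 2), R223.T i0 i1 1 (t ^ 2),
    R223.isProbabilityMeasure_target i0 i1 _ _, R223.isProbabilityMeasure_target i0 i1 _ _,
    R223.isSupported_target i0 i1 _ _ (by simp) hε0 hε,
    R223.isSupported_target i0 i1 _ _ (by simp) hε0 hε,
    R223.threeAtoms_neg i0 i1 h01 _ hε0 hε, R223.threeAtoms_pos i0 i1 h01 _ hε0 hε,
    R223.target_ne i0 i1 h01 _ hε0 hε,
    R223.unique_optimal_T i0 i1 h01 _ _ (Or.inr rfl) hε0 hε,
    R223.unique_optimal_T i0 i1 h01 _ _ (Or.inl rfl) hε0 hε, hw0, ?_⟩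
  have hl2 := R223.l2_lower i0 i1 h01 (t ^ 2) hε0 hε
  have h1 : Real.sqrt (8 * (t ^ 2) ^ 3) ≤ 3 * t ^ 3 := by
    apply Real.sqrt_le_iff.mpr
    constructor
    · positivity
    · have : 0 ≤ t ^ 6 := by positivity
      nlinarith
  have h2 : t / 4 ≤ Real.sqrt (t ^ 2 / 16) := by
    apply Real.le_sqrt_of_sq_le
    apply le_of_eq
    ring
  have h3 : Real.rpow (wasserstein2 (R223.target i0 i1 (-1) (t ^ 2))
      (R223.target i0 i1 1 (t ^ 2))) exponent ≤ (3 * t ^ 3) ^ exponent :=
    Real.rpow_le_rpow hw0.le (hw1.trans h1) (by linarith)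
  calc constant * Real.rpow (wasserstein2 (R223.target i0 i1 (-1) (t ^ 2))
      (R223.target i0 i1 1 (t ^ 2))) exponent ≤ constant * (3 * t ^ 3) ^ exponent :=
        mul_le_mul_of_nonneg_left h3 hconst.le
    _ < t / 4 := hineq
    _ ≤ _ := h2.trans hl2

end Claimed.Agent.S0449
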