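import Claimed.Statements.S0450
import Claimed.Agent.R224.Pk02

set_option autoImplicit false
open Claims Claims.C0381 Claims.C0381.BoxTransport Claims.C0381.BoxTransport.Routing
open scoped BigOperators ContDiff
open Claims Claims.C0381 Claims.C0381.BoxTransport Claims.C0381.BoxTransport.Routing

namespace Claimed.Agent.S0450

theorem result
    (n : ℕ) (a b h k : Fin n → RationalSpace)
    (hh : ∀ i j, 0 < h i j) (hk : ∀ i j, 0 < k i j)
    (ha : Pairwise fun i j => Disjoint (solidBox (a i) (h i)) (solidBox (a j) (h j)))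
    (hb : Pairwise fun i j => Disjoint (solidBox (b i) (k i)) (solidBox (b j) (k j)))
    (hvol : ∀ i, ∏ j : Fin 3, k i j / h i j = 1) :
    ∃ U : Field, ∃ Φ : ℝ → Space → Space,
      AdmissibleField U ∧ IsGlobalFlow U Φ ∧ Delivers a b h k Φ := by
  exact Claimed.Agent.R224.Asm450.assemble n a b h k
    (Claimed.Agent.R224.Routing.routing n a b h k hh hk ha hb hvol)

end Claimed.Agent.S0450
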