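import Claimed.Statements.S0451
import Claimed.Agent.R224.Pk02
import Claimed.Agent.R224.Pk03

set_option autoImplicit false
open Claims Claims.C0382 Claims.C0382.BalancedTransport
open Claims Claims.C0382 Claims.C0382.BalancedTransport

namespace Claimed.Agent.S0451

open Claimed.Agent.R224 Claimed.Agent.R224.QAlg Claimed.Agent.R224.Fabius in
/-- code of the time profile -/
def sP : Poly := [(2, [(none, 2, 0)]), (-2, [(none, 2, -1)])]

open Claimed.Agent.R224 Claimed.Agent.R224.QAlg Claimed.Agent.R224.Fabius in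
/-- the time profile `S'` -/
noncomputable def sF (t : ℝ) : ℝ := 2 * (S (2 * t) - S (2 * t - 1))

open Claimed.Agent.R224 Claimed.Agent.R224.QAlg Claimed.Agent.R224.Fabius in
theorem sem_sP (z : Pt) : sem sP z = sF z.1 := by
  simp [sem, sP, monoSem, atomSem, coord, sF]
  ring_nf

open Claimed.Agent.R224 Claimed.Agent.R224.QAlg Claimed.Agent.R224.Fabius in
theorem H1 (t : ℝ) (x : Space) (i : Fin 3) :
    sF t * FieldV.V x i = sem (mul sP (FieldV.Vc i)) (t, x) := by
  rw [sem_mul, sem_sP, FieldV.sem_Vc_time]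

open Claimed.Agent.R224 Claimed.Agent.R224.QAlg Claimed.Agent.R224.Fabius in
theorem H2 (z : Pt) (i : Fin 3) (hz : ((6 : ℕ) : ℝ) < ‖z.2‖) :
    sem (mul sP (FieldV.Vc i)) z = 0 := by
  obtain ⟨t, x⟩ := z
  rw [← H1, FieldV.V_eq_zero_of_norm (by simpa using hz)]
  simp

open Claimed.Agent.R224 Claimed.Agent.R224.QAlg Claimed.Agent.R224.Fabius in
theorem contDiff_sF : ContDiff ℝ (⊤ : ℕ∞) sF := by
  unfold sF
  have h1 : ContDiff ℝ (⊤ : ℕ∞) (fun t : ℝ => S (2 * t)) :=
    contDiff_S.comp (contDiff_const.mul contDiff_id)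
  have h2 : ContDiff ℝ (⊤ : ℕ∞) (fun t : ℝ => S (2 * t - 1)) :=
    contDiff_S.comp ((contDiff_const.mul contDiff_id).sub contDiff_const)
  exact contDiff_const.mul (h1.sub h2)

theorem result :
    ∃ U f₀ f₁ : Family Velocity,
    ∃ X : Family MaterialFlow,
    ∃ repeated : FiniteMachine → Velocity,
      EffectiveFamily U ∧ EffectiveFamily f₀ ∧ EffectiveFamily f₁ ∧
      (∀ M, Function.Periodic (repeated M) 1) ∧
      ∀ (M : FiniteMachine) (w : Input M),
        Smooth (U M w) ∧ Smooth (f₀ M w) ∧ Smooth (f₁ M w) ∧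
        f₀ M w = inertialCoefficient (U M w) ∧
        f₁ M w = viscousCoefficient (U M w) ∧
        CommonCompactSupport (U M w) (f₀ M w) (f₁ M w) ∧
        BoundedMixed (U M w) ∧
        PeriodicAfterOne (U M w) ∧
        (∀ t, 1 ≤ t → ∀ x, U M w t x = repeated M t x) ∧
        ComparisonClass (U M w) (fun _ _ => 0) ∧
        IsMaterialFlow (U M w) (X M w) ∧
        ((∃ t : ℝ, 0 ≤ t ∧ X M w t fixedLabel ∈ observer) ↔ Halts M w) ∧
        ∀ ν : ℝ, 0 < ν →
          let f := affineForce (f₀ M w) (f₁ M w) ν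
          ZeroDataSolution ν f (U M w) (fun _ _ => 0) ∧
          Smooth f ∧ BoundedMixed f ∧ PeriodicAfterOne f ∧
          UniqueInComparison ν f (U M w) ∧
          (ComputableReal ν → EffectiveFieldIn ∅ f) ∧
          (∀ name : ℕ → ℚ, RealName name ν → EffectiveFieldIn {nameOracle name} f) := by
  refine Claimed.Agent.R224.Assemble382.reduce sF Claimed.Agent.R224.Fabius.S
    Claimed.Agent.R224.FieldV.V Claimed.Agent.R224.Interp.I382.d 2
    contDiff_sF Claimed.Agent.R224.Fabius.hasDerivAt_S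
    (Claimed.Agent.R224.Fabius.S_of_nonpos le_rfl) Claimed.Agent.R224.Fabius.S_nonneg
    Claimed.Agent.R224.Fabius.S_le_one (Claimed.Agent.R224.Fabius.S_of_one_le le_rfl)
    ?_ ?_ Claimed.Agent.R224.Fabius.abs_deriv_S_le
    Claimed.Agent.R224.FieldV.contDiff_V Claimed.Agent.R224.FieldV.hasCompactSupport_V
    Claimed.Agent.R224.FieldV.div_V Claimed.Agent.R224.FieldV.V_segment
    Claimed.Agent.R224.Interp.I382.d_nonneg Claimed.Agent.R224.Interp.I382.d_le_one
    Claimed.Agent.R224.Interp.I382.d_pos_iff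
    (Claimed.Agent.R224.Eff382.hEU H1 H2) (Claimed.Agent.R224.Eff382.hE0 H1 H2)
    (Claimed.Agent.R224.Eff382.hE1 H1 H2) (Claimed.Agent.R224.Eff382.hEf H1)
  · unfold sF
    rw [Claimed.Agent.R224.Fabius.S_of_nonpos (by norm_num),
      Claimed.Agent.R224.Fabius.S_of_nonpos (by norm_num)]
    norm_num
  · intro t ht
    unfold sF
    rw [Claimed.Agent.R224.Fabius.S_of_one_le (by linarith),
      Claimed.Agent.R224.Fabius.S_of_one_le (by linarith)]
    norm_num

end Claimed.Agent.S0451
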