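import Claimed.Statements.S0453
import Claimed.Agent.R224.Pk04

set_option autoImplicit false
open Claims Claims.C0384 Claims.C0384.AlternatingNS
open scoped BigOperators ENNReal Topology ContDiff
open MeasureTheory
open Claims Claims.C0384 Claims.C0384.AlternatingNS

namespace Claimed.Agent.S0453

theorem result (ν : ℝ) (hν : 0 < ν) (hc : ComputableReal ν) :
    AlternatingConclusion ν := by
  obtain ⟨cF, cV, hcF, hcV, hF, hV⟩ := Claimed.Agent.R224.Eff384.exists_compilers ν hc
  exact Claimed.Agent.R224.Assemble384.reduce ν hν Claimed.Agent.R224.Rep384.sF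
    Claimed.Agent.R224.Fabius.S Claimed.Agent.R224.FieldV384.V Claimed.Agent.R224.Eff384.dd 2
    Claimed.Agent.R224.Rep384.contDiff_sF Claimed.Agent.R224.Fabius.hasDerivAt_S
    (Claimed.Agent.R224.Fabius.S_of_nonpos le_rfl) Claimed.Agent.R224.Fabius.S_nonneg
    Claimed.Agent.R224.Fabius.S_le_one (Claimed.Agent.R224.Fabius.S_of_one_le le_rfl)
    Claimed.Agent.R224.Rep384.sF_zero (fun _ ht => Claimed.Agent.R224.Rep384.sF_of_one_le ht)
    Claimed.Agent.R224.Fabius.abs_deriv_S_le
    Claimed.Agent.R224.FieldV384.contDiff_V Claimed.Agent.R224.FieldV384.hasCompactSupport_V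
    Claimed.Agent.R224.FieldV384.div_V Claimed.Agent.R224.FieldV384.V_segment
    Claimed.Agent.R224.Eff384.dd_nonneg Claimed.Agent.R224.Eff384.dd_le_one
    (fun M w _ _ => Claimed.Agent.R224.Interp.I384.d_pos_iff M w)
    cF cV hcF hcV (fun M w _ _ => hF (M, w)) (fun M w _ _ => hV (M, w))

end Claimed.Agent.S0453
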