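-- Statement S0471 (row 236).  Proof: `Claimed/Agent/R236/` (framework of helper354, route K of helper18,
-- formalised by the row-236 team); the glue is `R236/MainOf.lean`.
import Claimed.Statements.S0471
import Claimed.Agent.R236.MainOf
import Claimed.Agent.R236.K.Bridge

set_option autoImplicit false
open Claims Claims.C0399
open Claims Claims.C0399

namespace Claimed.Agent.S0471

theorem result (g r : ℕ) (hr : 1 ≤ r) :
    ∃ L : IntermediateField ℚ ℂ, FiniteDimensional ℚ L ∧
      ∀ (m : ℕ) (f : Fin m → MvPolynomial (RepVar g r) ℤ) (c : Fin m → ℂ),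
        (∀ i, IsConjInvariant (f i)) →
        (∀ ρ, IsComplexRep ρ →
          (∀ h : MvPolynomial (RepVar g r) ℤ, IsConjInvariant h →
            MvPolynomial.aeval ρ h ∈ L ∧ IsIntegral ℤ (MvPolynomial.aeval ρ h)) →
          ∑ i, c i * MvPolynomial.aeval ρ (f i) = 0) →
        ∀ ρ, IsComplexRep ρ → ∑ i, c i * MvPolynomial.aeval ρ (f i) = 0 :=
  Claimed.Agent.R236.mainOf_statement hr
    (fun _ hn _ hρ h => Claimed.Agent.R236.K.irr_mem_VC (Claimed.Agent.R236.ringS r) hn hρ h)

end Claimed.Agent.S0471
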