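import Claimed.Statements.S0485
import Claimed.Agent.R246.TF1
import Claimed.Agent.R246.KD390.Ok

set_option autoImplicit false
open Claims Claims.C0413
open Claims Claims.C0413

namespace Claimed.Agent.S0485

theorem result :
    ∃ (A : Type) (_ : CommRing A) (_ : IsDomain A) (_ : Algebra ℂ A),
      Algebra.FiniteType ℂ A ∧ IsIntegrallyClosed A ∧ ringKrullDim A = 2 ∧
      Nonempty (Derivation ℂ A A ≃ₗ[A] (Fin 2 → A)) ∧
      ∃ (m : Ideal A) (_ : m.IsMaximal), ¬ IsRegularLocalRing (Localization.AtPrime m) := by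
  obtain ⟨dd⟩ := Claimed.Agent.R246.KC.Raw.exists_DD_of_ok13 Claimed.Agent.R246.KD390.ok13
  exact (Claimed.Agent.R246.lzGoal_of_dd dd).frozen

end Claimed.Agent.S0485
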