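import Claimed.Statements.S0520
import Claimed.Agent.R277.Pk34

set_option autoImplicit false
open Claims Claims.C0448
open IsLocalRing
open Claims Claims.C0448

namespace Claimed.Agent.S0520

theorem result :
    ∃ (R : Type) (_ : CommRing R) (_ : IsDomain R) (_ : IsLocalRing R) (_ : IsNoetherianRing R)
      (_ : Algebra ℂ R),
      IsAdicComplete (maximalIdeal R) R ∧ IsIntegrallyClosed R ∧ ringKrullDim R = 3 ∧
      Function.Bijective (algebraMap ℂ (ResidueField R)) ∧ ¬ HasDepthThreeModule R := by
  exact Claimed.Agent.R277.S0520_of_blackboxes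

end Claimed.Agent.S0520
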