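-- Statement S0524 (row 279): the Kurosh problem for division rings.
import Claimed.Statements.S0524
import Claimed.Agent.R279.Pk27
import Claimed.Agent.R279.Pk28
import Claimed.Agent.R279.Pk25
import Claimed.Agent.R279.Pk26

set_option autoImplicit false
open Claims Claims.C0452
open Claims Claims.C0452

namespace Claimed.Agent.S0524

theorem result :
    ∃ (D : Type) (_ : DivisionRing D), Countable D ∧ CharZero D ∧
      Algebra.IsAlgebraic (Subring.center D) D ∧
      (∃ x y : D, Algebra.adjoin (Subring.center D) ({x, y} : Set D) = ⊤) ∧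
      ¬ FiniteDimensional (Subring.center D) D :=
  Claimed.Agent.R279.result_of_crux (Claimed.Agent.R279.crux_of_thmF
    (Claimed.Agent.R279.thmF_of_contracts
      (Claimed.Agent.R279.s4c_of_rcu (Claimed.Agent.R279.S4U.rcu_of_rc2 Claimed.Agent.R279.rc2))
      Claimed.Agent.R279.s5c Claimed.Agent.R279.thmD_stmt))

end Claimed.Agent.S0524
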