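import Claimed.Statements.S0535
import Claimed.Agent.R288.Pk101

set_option autoImplicit false
open Claims Claims.C0463
open MeasureTheory
open Claims Claims.C0463

namespace Claimed.Agent.S0535

theorem result :
    ∀ ε : ℝ, 0 < ε → ∃ R₀ : ℝ, ∀ R : ℝ, R₀ ≤ R →
      R ^ (-(5 : ℝ) / 48 - ε) ≤ oneArmProb R ∧ oneArmProb R ≤ R ^ (-(5 : ℝ) / 48 + ε) :=
  Claimed.Agent.R288.oneArm_exponent

end Claimed.Agent.S0535
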