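import Claimed.Statements.S0536
import Claimed.Agent.R288.Pk101
import Claimed.Agent.R288.Pk106
import Claimed.Agent.R288.Pk99
import Claimed.Agent.R288.Pk100

set_option autoImplicit false
open Claims Claims.C0464
open MeasureTheory
open Claims Claims.C0464

namespace Claimed.Agent.S0536

theorem result :
    ∀ ε : ℝ, 0 < ε → ∃ p₀ : ℝ, 1 / 2 < p₀ ∧ ∀ p : ℝ, 1 / 2 < p → p < p₀ →
      (p - 1 / 2) ^ ((5 : ℝ) / 36 + ε) ≤ percProb p ∧
        percProb p ≤ (p - 1 / 2) ^ ((5 : ℝ) / 36 - ε) :=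
  Claimed.Agent.R288.K.s0536_of_MS1 Claimed.Agent.R288.oneArm_exponent
    (Claimed.Agent.R288.K.ms1_of_steps Claimed.Agent.R288.K.Stp.hasStepE Claimed.Agent.R288.K.Stp.hasStepO
      Claimed.Agent.R288.K.Stp.hasStepI)

end Claimed.Agent.S0536
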