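-- Statement S0563 (row 308): Chai's Hope.  Assembly of the packages under Claimed/Agent/R308/.
import Claimed.Statements.S0563
import Claimed.Agent.R308.Pk17
import Claimed.Agent.R308.Pk20

set_option autoImplicit false
open Claims Claims.C0491
open Claims Claims.C0491

namespace Claimed.Agent.S0563

theorem result (p n : ℕ) [Fact p.Prime] (hn : 1 ≤ n)
    (F : FormalGroup (LubinTateRing p n)) [F.IsComm] (hF : IsUniversalDeformation p n F)
    (hH : mulSeries (F.map (lubinTateResidue p n)) p = MvPowerSeries.X 0 ^ (p ^ n))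
    (N : ℕ) (hN : 1 ≤ N) :
    (∀ P : Ideal (LubinTateRing p n), P.IsPrime →
      (IsStableUnderCongruenceSubgroup p n F N P ↔ ∃ h ≤ n, P = heightIdeal p n F h)) ∧
    (∀ J : Ideal (LubinTateRing p n), J.IsRadical →
      (IsStableUnderCongruenceSubgroup p n F N J ↔ J = ⊤ ∨ ∃ h ≤ n, J = heightIdeal p n F h)) :=
  Claimed.Agent.R308.S0563_of_ODpt hn F hF hH N
    (fun _ D => Claimed.Agent.R308.odptZero_main D N)
    (fun D => Claimed.Agent.R308.odptPos_of_posInput
      (fun h m _ => Claimed.Agent.R308.posInput_main p h m) D N)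

end Claimed.Agent.S0563
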