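import Claimed.Statements.S0582
import Claimed.Agent.R324.Main

set_option autoImplicit false
open Claims Claims.C0510
open scoped ContDiff
open Claims Claims.C0510

namespace Claimed.Agent.S0582

theorem result :
    ∃ q : ℕ, 10 ≤ q ∧ ∃ T : ℝ, 0 < T ∧
      ∃ g : ℝ → EuclideanSpace ℝ (Fin (3 + (q + 2))) →
          EuclideanSpace ℝ (Fin (3 + (q + 2))) →L[ℝ] EuclideanSpace ℝ (Fin (3 + (q + 2))) →L[ℝ] ℝ,
        IsRicciFlow (q + 3) (spherePairProd q) g T ∧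
        (∃ C : ℝ, ∀ (ψ : EuclideanSpace ℝ (Fin (q + 3)) → EuclideanSpace ℝ (Fin (3 + (q + 2))))
          (U : Set (EuclideanSpace ℝ (Fin (q + 3)))), IsLocalParam (spherePairProd q) ψ U →
            ∀ t ∈ Set.Ico 0 T, ∀ u ∈ U, |scalarCoord (coordMetric (g t) ψ) u| ≤ C) ∧
        ∀ C : ℝ, ∃ δ : ℝ, 0 < δ ∧ ∀ t ∈ Set.Ioo (T - δ) T,
          ∃ (ψ : EuclideanSpace ℝ (Fin (q + 3)) → EuclideanSpace ℝ (Fin (3 + (q + 2))))
            (U : Set (EuclideanSpace ℝ (Fin (q + 3)))) (u : EuclideanSpace ℝ (Fin (q + 3))),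
            IsLocalParam (spherePairProd q) ψ U ∧ u ∈ U ∧
              C < riemannNormSq (coordMetric (g t) ψ) u :=
  ⟨10 ^ 6 + 1, by norm_num, Claimed.Agent.R324.goal_of_large_odd (10 ^ 6 + 1) ⟨5 * 10 ^ 5, by norm_num⟩ (by norm_num)⟩

end Claimed.Agent.S0582
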