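import Claimed.Statements.S0585
import Claimed.Agent.R327.Pk95
import Claimed.Agent.R327.Pk04

set_option autoImplicit false
open Claims Claims.C0513
open MeasureTheory Metric
open scoped ContDiff
open Claims Claims.C0513

namespace Claimed.Agent.S0585

theorem result (Ω : Set (EuclideanSpace ℝ (Fin 2)))
    (hΩo : IsOpen Ω) (hΩb : Bornology.IsBounded Ω) (g : EuclideanSpace ℝ (Fin 2) → ℝ)
    (hg : MemLp g ⊤ (volume.restrict Ω)) (u : EuclideanSpace ℝ (Fin 2) → ℝ)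
    (G : EuclideanSpace ℝ (Fin 2) → EuclideanSpace ℝ (Fin 2)) (K : Set (EuclideanSpace ℝ (Fin 2)))
    (hmin : IsReducedAbsoluteMSMinimizer Ω g u G K) :
    (∀ x ∈ K, ∃ r : ℝ, 0 < r ∧ ball x r ⊆ Ω ∧ ∃ α : ℝ, 0 < α ∧
      ((∃ e n h, IsFrame e n ∧ IsC1AlphaProfile h α ∧
          K ∩ ball x r = graphArc x e n h Set.univ ∩ ball x r) ∨
       (∃ e n h, IsFrame e n ∧ IsC1AlphaProfile h α ∧
          K ∩ ball x r = graphArc x e n h (Set.Ici 0) ∩ ball x r) ∨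
       (∃ (e n : Fin 3 → EuclideanSpace ℝ (Fin 2)) (h : Fin 3 → ℝ → ℝ),
          (∀ i, IsFrame (e i) (n i) ∧ IsC1AlphaProfile (h i) α) ∧
          (∀ i j, i ≠ j → inner ℝ (e i) (e j) = -1 / 2) ∧
          (∀ i j, i ≠ j →
            graphArc x (e i) (n i) (h i) (Set.Ici 0) ∩ graphArc x (e j) (n j) (h j) (Set.Ici 0) ∩
              ball x r ⊆ {x}) ∧
          K ∩ ball x r = (⋃ i, graphArc x (e i) (n i) (h i) (Set.Ici 0)) ∩ ball x r))) ∧
    (∀ U : Set (EuclideanSpace ℝ (Fin 2)), IsOpen U → IsCompact (closure U) → closure U ⊆ Ω →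
      {C : Set (EuclideanSpace ℝ (Fin 2)) |
        ∃ y ∈ K, C = connectedComponentIn K y ∧ (C ∩ U).Nonempty}.Finite) := by
  have h1 := Claimed.Agent.R327.Fin.first_conj Ω hΩo hΩb g hg u G K hmin
  exact ⟨h1, Claimed.Agent.R327.Z.conj2_of_conj1 hmin.1.2.1 h1⟩

end Claimed.Agent.S0585
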